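import Vale.Agent.P259.Theta
import Vale.Agent.P259.Five.El

/-!
# Globular sums by recursion: groupoids on `cons`; first and last vertices
-/

noncomputable section

open CategoryTheory Opposite

namespace Vale.Agent.P259

namespace GlobSum

/-- Induction along a table. -/
theorem induction {P : GlobSum → Prop} (hd : ∀ n, P (disc n))
    (hc : ∀ i j A h₁ h₂, P A → P (GlobSum.cons i j A h₁ h₂)) : ∀ A, P A := by
  rintro ⟨h, r, v⟩
  induction r generalizing h with
  | nil => exact hd h
  | cons p r ih => exact hc h p.1 ⟨p.2, r, v.2.2⟩ v.1 v.2.1 (ih p.2 v.2.2)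

variable {i j : ℕ} {A : GlobSum} (h₁ : j < i) (h₂ : j < A.head)

theorem cons_i_succ (l : Fin (A.len + 1)) :
    (GlobSum.cons i j A h₁ h₂).i l.succ = A.i l := by
  induction l using Fin.cases with
  | zero => rfl
  | succ k => rfl

/-- The first disc of a `cons`. -/
def inl : disc i ⟶ GlobSum.cons i j A h₁ h₂ := incl (GlobSum.cons i j A h₁ h₂) (0 : Fin (A.len + 2))

/-- The rest of a `cons`. -/
def inr : A ⟶ GlobSum.cons i j A h₁ h₂ :=
  ofCells
    (fun l => ((GlobSum.cons i j A h₁ h₂).top l.succ).pull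
      (GHom.ofEq (cons_i_succ h₁ h₂ l).symm))
    (fun l => by
      rw [← GlobSum.Cell.pull_comp, ← GlobSum.Cell.pull_comp, GHom.bd_comp_ofEq,
        GHom.bd_comp_ofEq]
      exact glue_top (GlobSum.cons i j A h₁ h₂) l.succ)

theorem incl_inr (l : Fin (A.len + 1)) :
    incl A l ≫ inr h₁ h₂ = discMap (GHom.ofEq (cons_i_succ h₁ h₂ l).symm) ≫
      incl (GlobSum.cons i j A h₁ h₂) l.succ :=
  ((ofCell_comp (A.top l) _).trans (congrArg ofCell (cellMap_ofCells_top _ _ l))).trans
    (discMap_comp_ofCell _ ((GlobSum.cons i j A h₁ h₂).top l.succ)).symm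

theorem discMap_ofEq_comp {a b : ℕ} (e : a = b) :
    discMap (GHom.ofEq e) ≫ discMap (GHom.ofEq e.symm) = 𝟙 (disc a) := by
  subst e; simp

/-- The first disc, typed by the head of the table. -/
def inclHead (A : GlobSum) : disc A.head ⟶ A := incl A (0 : Fin (A.len + 1))

theorem cons_glue : discMap (.bd h₁ true) ≫ inl h₁ h₂ =
    (discMap (.bd h₂ false) ≫ inclHead A) ≫ inr h₁ h₂ := by
  have e2 : discMap (.bd h₂ false) ≫ discMap (GHom.ofEq (cons_i_succ h₁ h₂ 0).symm) =
      glueSrc (GlobSum.cons i j A h₁ h₂) (0 : Fin (A.len + 1)) :=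
    ((discMap_comp _ _).symm.trans (congrArg discMap (GHom.bd_comp_ofEq h₂ false _)))
  refine (glue_incl (GlobSum.cons i j A h₁ h₂) (0 : Fin (A.len + 1))).trans ?_
  rw [← e2]
  exact (Category.assoc _ _ _).trans
    ((congrArg (discMap (GHom.bd h₂ false) ≫ ·) (incl_inr h₁ h₂ 0).symm).trans
      (Category.assoc _ _ _).symm)

end GlobSum

open GlobSum

namespace GlobExt

variable (C : GlobExt) {A : GlobSum}

/-- The vertices of a disc. -/
def vx (β : Bool) (n : ℕ) : C.ob (disc 0) ⟶ C.ob (disc n) := C.hom (discMap (GHom.vtx β n))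

/-- The first vertex. -/
def first (A : GlobSum) : C.ob (disc 0) ⟶ C.ob A :=
  C.vx false (A.i (0 : Fin (A.len + 1))) ≫ C.hom (incl A 0)

/-- The last vertex. -/
def last (A : GlobSum) : C.ob (disc 0) ⟶ C.ob A :=
  C.vx true (A.i (Fin.last A.len)) ≫ C.hom (incl A (Fin.last A.len))

theorem incl_disc (n : ℕ) : incl (disc n) (0 : Fin 1) = 𝟙 (disc n) :=
  GlobSum.disc_hom_ext (cellMap_ofCell _)

@[simp] theorem first_disc (n : ℕ) : C.first (disc n) = C.vx false n := by
  change C.vx false n ≫ C.hom (incl (disc n) (0 : Fin 1)) = _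
  rw [incl_disc]
  simp

@[simp] theorem last_disc (n : ℕ) : C.last (disc n) = C.vx true n := by
  change C.vx true n ≫ C.hom (incl (disc n) (0 : Fin 1)) = _
  rw [incl_disc]
  simp

theorem first_cons {i j : ℕ} (h₁ : j < i) (h₂ : j < A.head) :
    C.first (GlobSum.cons i j A h₁ h₂) = C.vx false i ≫ C.hom (GlobSum.inl h₁ h₂) := rfl

theorem vx_ofEq (β : Bool) {n m : ℕ} (e : n = m) :
    C.vx β n ≫ C.hom (discMap (GHom.ofEq e)) = C.vx β m := by
  subst e; simp [vx]

theorem last_cons {i j : ℕ} (h₁ : j < i) (h₂ : j < A.head) :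
    C.last (GlobSum.cons i j A h₁ h₂) = C.last A ≫ C.hom (GlobSum.inr h₁ h₂) := by
  rw [last, last, Category.assoc, ← hom_comp, incl_inr, hom_comp, ← Category.assoc, vx_ofEq]
  rfl

end GlobExt

namespace Gpd

variable {C : GlobExt} (X : Gpd C) {A B D : GlobSum}

theorem act_ι_comp (f : A ⟶ B) (g : B ⟶ D) (u : X.val D) :
    X.act (C.ι f) (X.act (C.ι g) u) = X.act (C.ι (f ≫ g)) u := by
  rw [← X.act_comp, C.ι_comp]

@[simp] theorem act_ι_id (u : X.val A) : X.act (C.ι (𝟙 A)) u = u := by rw [C.ι_id, X.act_id]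

/-- An element over a globular sum is determined by its components. -/
theorem val_ext {u v : X.val A} (h : ∀ l, X.act (C.ι (incl A l)) u = X.act (C.ι (incl A l)) v) :
    u = v := by
  have hm : Matching (fun S => X.val S) (fun f => X.act (C.ι f)) A
      (fun l => X.act (C.ι (incl A l)) u) := by
    intro l
    change X.act (C.ι (glueTgt A l)) _ = X.act (C.ι (glueSrc A l)) _
    rw [act_ι_comp, act_ι_comp, GlobSum.glue_incl]
  exact (X.property A _ hm).unique (fun _ => rfl) (fun l => (h l).symm)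

/-- A groupoid on a `cons` is the fibre product. -/
theorem cons_val {i j : ℕ} (h₁ : j < i) (h₂ : j < A.head) (u : X.val (disc i)) (v : X.val A)
    (huv : X.act (C.ι (discMap (.bd h₁ true))) u =
      X.act (C.ι (discMap (.bd h₂ false) ≫ GlobSum.inclHead A)) v) :
    ∃! w : X.val (GlobSum.cons i j A h₁ h₂), X.act (C.ι (GlobSum.inl h₁ h₂)) w = u ∧
      X.act (C.ι (GlobSum.inr h₁ h₂)) w = v := by
  set S := GlobSum.cons i j A h₁ h₂
  let x : ∀ l, X.val (disc (S.i l)) := Fin.cases (motive := fun l => X.val (disc (S.i l))) u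
    (fun l => X.act (C.ι (discMap (GHom.ofEq (cons_i_succ h₁ h₂ l)) ≫ incl A l)) v)
  have hx : Matching (fun S => X.val S) (fun f => X.act (C.ι f)) S x := by
    intro l
    induction l using Fin.cases with
    | zero =>
      refine huv.trans ?_
      refine Eq.trans ?_ (X.act_ι_comp _ _ v).symm
      refine congrArg (fun f => X.act (C.ι f) v) ?_
      exact ((Category.assoc _ _ _).symm.trans (congrArg (· ≫ GlobSum.inclHead A)
        ((discMap_comp _ _).symm.trans (congrArg discMap (GHom.bd_comp_ofEq _ _ _))))).symm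
    | succ l =>
      refine (X.act_ι_comp _ _ v).trans (Eq.trans ?_ (X.act_ι_comp _ _ v).symm)
      refine congrArg (fun f => X.act (C.ι f) v) ?_
      exact ((Category.assoc _ _ _).symm.trans (congrArg (· ≫ incl A l.castSucc)
          ((discMap_comp _ _).symm.trans (congrArg discMap (GHom.bd_comp_ofEq _ _ _))))).trans <|
        (glue_incl A l).trans (((Category.assoc _ _ _).symm.trans
          (congrArg (· ≫ incl A l.succ) ((discMap_comp _ _).symm.trans
            (congrArg discMap (GHom.bd_comp_ofEq _ _ _))))).symm)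
  obtain ⟨w, hw, huniq⟩ := X.property S x hx
  have hiso : ∀ l, incl S l.succ = (discMap (GHom.ofEq (cons_i_succ h₁ h₂ l)) ≫ incl A l) ≫
      GlobSum.inr h₁ h₂ := fun l =>
    ((Category.assoc _ _ _).trans
      ((congrArg (discMap _ ≫ ·) (incl_inr h₁ h₂ l)).trans ((Category.assoc _ _ _).symm.trans
        ((congrArg (· ≫ incl S l.succ) (discMap_ofEq_comp (cons_i_succ h₁ h₂ l))).trans
          (Category.id_comp _))))).symm
  refine ⟨w, ⟨hw 0, X.val_ext fun l => ?_⟩, fun w' hw' => huniq w' fun l => ?_⟩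
  · refine (X.act_ι_comp _ _ w).trans ?_
    refine (congrArg (fun f => X.act (C.ι f) w) (incl_inr h₁ h₂ l)).trans ?_
    refine (X.act_ι_comp _ _ w).symm.trans ((congrArg (X.act _) (hw l.succ)).trans ?_)
    refine (X.act_ι_comp _ _ v).trans (congrArg (fun f => X.act (C.ι f) v) ?_)
    exact (Category.assoc _ _ _).symm.trans
      ((congrArg (· ≫ incl A l) (discMap_ofEq_comp (cons_i_succ h₁ h₂ l).symm)).trans
        (Category.id_comp _))
  · induction l using Fin.cases with
    | zero => exact hw'.1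
    | succ l =>
      refine (congrArg (fun f => X.act (C.ι f) w') (hiso l)).trans ?_
      refine (X.act_ι_comp _ _ w').symm.trans ?_
      exact congrArg (X.act _) hw'.2

end Gpd

end Vale.Agent.P259
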