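import Mathlib

/-!
# P259: the Grothendieck homotopy hypothesis (Q1): definitions and statement

* `Globe`: the globe category `𝔾`; `GlobSum`: tables of dimensions, with
  `GlobSum.presheaf` the iterated pushout of representable presheaves and `GlobSum` carrying
  the category structure of `Θ₀` (morphisms = morphisms of presheaves on `𝔾`).
* `GlobExt`: globular extensions, presented with the objects of `Θ₀` as objects.
* `IsCoherator`, `Gpd`, `weqGpd`, `DiscFunctor`, `fundGpd`, `weqTop`.
* `Q1`: the statement of the question.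
-/

noncomputable section

open CategoryTheory Opposite

namespace Vale.Agent.P259

/-! ## The globe category -/

/-- The objects `D_n` of the globe category. -/
structure Globe : Type where
  dim : ℕ

/-- Morphisms `D_a ⟶ D_b` of the globe category: the identity, or, for `a < b`, one of the two
composites determined by their first generator (`false` for `σ`, `true` for `τ`); this is the
normal form for the relations `σσ = τσ`, `στ = ττ`. -/
inductive GHom : ℕ → ℕ → Type
  | id (n : ℕ) : GHom n n
  | bd {n m : ℕ} (h : n < m) (b : Bool) : GHom n m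

/-- Composition in the globe category (`f` first). -/
def GHom.comp : {a b c : ℕ} → GHom a b → GHom b c → GHom a c
  | _, _, _, .id _, g => g
  | _, _, _, .bd h b, .id _ => .bd h b
  | _, _, _, .bd h b, .bd h' _ => .bd (h.trans h') b

theorem GHom.comp_id' {a b : ℕ} (f : GHom a b) : f.comp (.id b) = f := by cases f <;> rfl

theorem GHom.comp_assoc {a b c d : ℕ} (f : GHom a b) (g : GHom b c) (h : GHom c d) :
    (f.comp g).comp h = f.comp (g.comp h) := by
  cases f <;> cases g <;> cases h <;> rfl

instance : Category Globe where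
  Hom a b := GHom a.dim b.dim
  id a := .id a.dim
  comp f g := GHom.comp f g
  id_comp _ := rfl
  comp_id f := GHom.comp_id' f
  assoc f g h := GHom.comp_assoc f g h

/-- The category of presheaves on the globe category. -/
instance globePshCategory : Category (Globeᵒᵖ ⥤ Type) := Functor.category

/-- A morphism in `Type`, as a function. -/
abbrev applyHom {A B : Type} (f : A ⟶ B) : A → B := fun a => f a

/-! ## Globular sums and the category `Θ₀` -/

/-- `ValidTail i [(j₀, i₁), (j₁, i₂), …]`: each `j_l` is smaller than `i_l` and `i_{l+1}`. -/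
def ValidTail : ℕ → List (ℕ × ℕ) → Prop
  | _, [] => True
  | i, p :: r => p.1 < i ∧ p.1 < p.2 ∧ ValidTail p.2 r

/-- A table of dimensions `(i_0, j_0, i_1, …, j_{len-1}, i_len)`, given by `i_0` and the list of
the pairs `(j_l, i_{l+1})`. -/
@[ext]
structure GlobSum : Type where
  head : ℕ
  rest : List (ℕ × ℕ)
  valid : ValidTail head rest

/-- The number of gluings. -/
abbrev GlobSum.len (A : GlobSum) : ℕ := A.rest.length

/-- `i_l`. -/
def GlobSum.i (A : GlobSum) (l : Fin (A.len + 1)) : ℕ :=
  Fin.cases A.head (fun k => (A.rest.get k).2) l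

/-- `j_l`. -/
def GlobSum.j (A : GlobSum) (l : Fin A.len) : ℕ := (A.rest.get l).1

theorem ValidTail.lt {i : ℕ} : ∀ {r : List (ℕ × ℕ)}, ValidTail i r → ∀ l : Fin r.length,
    (r.get l).1 < Fin.cases (motive := fun _ => ℕ) i (fun k => (r.get k).2) l.castSucc ∧
      (r.get l).1 < (r.get l).2
  | [], _, l => l.elim0
  | p :: r, ⟨h₁, h₂, h₃⟩, l => by
    refine Fin.cases ⟨h₁, h₂⟩ (fun k => ?_) l
    obtain ⟨a, b⟩ := ValidTail.lt h₃ k
    refine ⟨lt_of_lt_of_eq a ?_, b⟩
    rcases k with ⟨_ | k, hk⟩ <;> rfl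

theorem GlobSum.lt_left (A : GlobSum) (l : Fin A.len) : A.j l < A.i l.castSucc :=
  (A.valid.lt l).1

theorem GlobSum.lt_right (A : GlobSum) (l : Fin A.len) : A.j l < A.i l.succ :=
  (A.valid.lt l).2

/-- The dimension of a globular sum: the maximum of the `i_l`. -/
def GlobSum.dim (A : GlobSum) : ℕ := Finset.univ.sup A.i

/-- The sum with the single term `D_n`. -/
def disc (n : ℕ) : GlobSum := ⟨n, [], trivial⟩

/-- The table `(i, j, A)`: `D_i ⨿_{D_j} A`. -/
def GlobSum.cons (i j : ℕ) (A : GlobSum) (h₁ : j < i) (h₂ : j < A.head) : GlobSum :=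
  ⟨i, (j, A.head) :: A.rest, h₁, h₂, A.valid⟩

/-- The `n`-cells of the disjoint union of the representables `D_{i_l}`. -/
def GlobSum.PreCell (A : GlobSum) (n : ℕ) : Type := Σ l, GHom n (A.i l)

/-- The gluing: the `τ`-face of the left term is the `σ`-face of the right one. -/
def GlobSum.Glue (A : GlobSum) (n : ℕ) (p q : A.PreCell n) : Prop :=
  ∃ (l : Fin A.len) (g : GHom n (A.j l)),
    p = ⟨l.castSucc, g.comp (.bd (A.lt_left l) true)⟩ ∧
      q = ⟨l.succ, g.comp (.bd (A.lt_right l) false)⟩

/-- The `n`-cells of the iterated pushout. -/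
def GlobSum.Cell (A : GlobSum) (n : ℕ) : Type := Quot (A.Glue n)

/-- The action of a globe map on the cells of a globular sum. -/
def GlobSum.Cell.pull {A : GlobSum} {m n : ℕ} (h : GHom m n) : A.Cell n → A.Cell m :=
  Quot.map (fun p => ⟨p.1, h.comp p.2⟩) (by
    rintro p q ⟨l, g, rfl, rfl⟩
    exact ⟨l, h.comp g, congrArg (Sigma.mk _) (GHom.comp_assoc _ _ _).symm,
      congrArg (Sigma.mk _) (GHom.comp_assoc _ _ _).symm⟩)

theorem GlobSum.Cell.pull_id {A : GlobSum} {n : ℕ} (x : A.Cell n) :
    GlobSum.Cell.pull (.id n) x = x := by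
  induction x using Quot.ind
  rfl

theorem GlobSum.Cell.pull_comp {A : GlobSum} {k m n : ℕ} (g : GHom k m) (h : GHom m n)
    (x : A.Cell n) : GlobSum.Cell.pull (g.comp h) x = (x.pull h).pull g := by
  induction x using Quot.ind with
  | _ p =>
    exact congrArg (fun q => Quot.mk _ (Sigma.mk p.1 q)) (GHom.comp_assoc g h p.2)

/-- The globular sum as a presheaf on the globe category. -/
def GlobSum.presheaf (A : GlobSum) : Globeᵒᵖ ⥤ Type where
  obj a := A.Cell a.unop.dim
  map f := TypeCat.ofHom (GlobSum.Cell.pull f.unop)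
  map_id a := by ext x; exact x.pull_id
  map_comp f g := by ext x; exact GlobSum.Cell.pull_comp _ _ x

/-- `Θ₀`: globular sums and morphisms of presheaves between them. -/
instance : Category GlobSum where
  Hom A B := A.presheaf ⟶ B.presheaf
  id A := 𝟙 A.presheaf
  comp f g := CategoryStruct.comp f g

/-- The Yoneda map `D_n ⟶ A` of an `n`-cell. -/
def ofCell {A : GlobSum} {n : ℕ} (c : A.Cell n) : disc n ⟶ A where
  app a := TypeCat.ofHom (Quot.lift
    (fun p => Fin.cases (motive := fun l => GHom a.unop.dim ((disc n).i l) → A.Cell a.unop.dim)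
      (fun h => c.pull h) (fun l => l.elim0) p.1 p.2)
    (by rintro p q ⟨l, -⟩; exact l.elim0))
  naturality a b f := by
    ext x
    induction x using Quot.ind with
    | _ p =>
      obtain ⟨l, h⟩ := p
      induction l using Fin.cases with
      | zero => exact GlobSum.Cell.pull_comp f.unop h c
      | succ l => exact l.elim0

/-- The map `D_a ⟶ D_b` of `Θ₀` given by a map of the globe category. -/
def discMap {a b : ℕ} (g : GHom a b) : disc a ⟶ disc b := ofCell (Quot.mk _ ⟨(0 : Fin 1), g⟩)

/-- `σ_n : D_n ⟶ D_{n+1}`. -/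
def src (n : ℕ) : disc n ⟶ disc (n + 1) := discMap (.bd n.lt_succ_self false)

/-- `τ_n : D_n ⟶ D_{n+1}`. -/
def tgt (n : ℕ) : disc n ⟶ disc (n + 1) := discMap (.bd n.lt_succ_self true)

/-- The `l`-th canonical map `D_{i_l} ⟶ A` into a globular sum. -/
def incl (A : GlobSum) (l : Fin (A.len + 1)) : disc (A.i l) ⟶ A :=
  ofCell (Quot.mk _ ⟨l, .id _⟩)

/-- The map `τ : D_{j_l} ⟶ D_{i_l}` of the table. -/
def glueTgt (A : GlobSum) (l : Fin A.len) : disc (A.j l) ⟶ disc (A.i l.castSucc) :=
  discMap (.bd (A.lt_left l) true)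

/-- The map `σ : D_{j_l} ⟶ D_{i_{l+1}}` of the table. -/
def glueSrc (A : GlobSum) (l : Fin A.len) : disc (A.j l) ⟶ disc (A.i l.succ) :=
  discMap (.bd (A.lt_right l) false)

/-- Families indexed by the terms of a table that agree on the glued faces. The functor `F`
is contravariant in its values: `F (disc n)` is the set of maps out of `D_n`. -/
def Matching (F : GlobSum → Sort*) (act : ∀ {A B : GlobSum}, (A ⟶ B) → F B → F A)
    (A : GlobSum) (x : ∀ l, F (disc (A.i l))) : Prop :=
  ∀ l : Fin A.len, act (glueTgt A l) (x l.castSucc) = act (glueSrc A l) (x l.succ)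

/-- `F` turns every globular sum into the iterated fibre product. -/
def SendsSumsToLimits (F : GlobSum → Sort*) (act : ∀ {A B : GlobSum}, (A ⟶ B) → F B → F A) :
    Prop :=
  ∀ (A : GlobSum) (x : ∀ l, F (disc (A.i l))), Matching F act A x →
    ∃! a : F A, ∀ l, act (incl A l) a = x l

/-! ## Globular extensions -/

/-- A globular extension: a category with the objects of `Θ₀` and an identity-on-objects functor
`ι` from `Θ₀` that sends every globular sum to a colimit. -/
structure GlobExt : Type 1 where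
  Hom : GlobSum → GlobSum → Type
  id : ∀ A, Hom A A
  comp : ∀ {A B C}, Hom A B → Hom B C → Hom A C
  id_comp : ∀ {A B} (f : Hom A B), comp (id A) f = f
  comp_id : ∀ {A B} (f : Hom A B), comp f (id B) = f
  assoc : ∀ {A B C D} (f : Hom A B) (g : Hom B C) (h : Hom C D),
    comp (comp f g) h = comp f (comp g h)
  ι : ∀ {A B : GlobSum}, (A ⟶ B) → Hom A B
  ι_id : ∀ A : GlobSum, ι (𝟙 A) = id A
  ι_comp : ∀ {A B C : GlobSum} (f : A ⟶ B) (g : B ⟶ C), ι (f ≫ g) = comp (ι f) (ι g)
  preserves : ∀ B : GlobSum,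
    SendsSumsToLimits (fun A => Hom A B) (fun f h => comp (ι f) h)

/-- The objects of a globular extension. -/
def GlobExt.Obj (_C : GlobExt) : Type := GlobSum

instance (C : GlobExt) : Category.{0} C.Obj where
  Hom A B := C.Hom A B
  id A := C.id A
  comp f g := C.comp f g
  id_comp := C.id_comp
  comp_id := C.comp_id
  assoc := C.assoc

/-- An object of `Θ₀` as an object of the extension. -/
def GlobExt.ob (C : GlobExt) (A : GlobSum) : C.Obj := A

/-- A map of `Θ₀` as a map of the extension. -/
def GlobExt.hom (C : GlobExt) {A B : GlobSum} (f : A ⟶ B) : C.ob A ⟶ C.ob B := C.ι f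

/-- Functors under `Θ₀` between globular extensions. -/
@[ext]
structure GlobExt.Map (C C' : GlobExt) : Type where
  map : ∀ {A B}, C.Hom A B → C'.Hom A B
  map_id : ∀ A, map (C.id A) = C'.id A
  map_comp : ∀ {A B D} (f : C.Hom A B) (g : C.Hom B D),
    map (C.comp f g) = C'.comp (map f) (map g)
  map_ι : ∀ {A B : GlobSum} (f : A ⟶ B), map (C.ι f) = C'.ι f

/-- Parallel maps out of a disc. -/
def Parallel (C : GlobExt) {S : GlobSum} : {n : ℕ} → C.Hom (disc n) S → C.Hom (disc n) S → Prop
  | 0, _, _ => True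
  | m + 1, f, g =>
    C.comp (C.ι (src m)) f = C.comp (C.ι (src m)) g ∧
      C.comp (C.ι (tgt m)) f = C.comp (C.ι (tgt m)) g

/-- Lifts of a pair of maps out of a disc. -/
def Lift (C : GlobExt) {S : GlobSum} {n : ℕ} (f g : C.Hom (disc n) S) : Type :=
  {h : C.Hom (disc (n + 1)) S // C.comp (C.ι (src n)) h = f ∧ C.comp (C.ι (tgt n)) h = g}

/-- A parallel pair `D_n ⇉ S` with `dim S ≤ n + 1`. -/
structure Admissible (C : GlobExt) : Type where
  n : ℕ
  S : GlobSum
  f : C.Hom (disc n) S
  g : C.Hom (disc n) S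
  parallel : Parallel C f g
  dim_le : S.dim ≤ n + 1

/-- The lifts in `E` of the image of a pair. -/
abbrev LiftsOf {C E : GlobExt} (F : GlobExt.Map C E) (p : Admissible C) : Type :=
  Lift E (F.map p.f) (F.map p.g)

/-- `G` sends the lift `ℓ` to the lift `L`. -/
abbrev SendsLift {C C' E : GlobExt} (j : GlobExt.Map C C') (F : GlobExt.Map C E)
    (G : GlobExt.Map C' E) (p : Admissible C) (ℓ : LiftsOf j p) (L : LiftsOf F p) : Prop :=
  G.map ℓ.1 = L.1

/-! ## Coherators -/

/-- `C'` is obtained from `C` (through `j`) by universally adjoining the lifts `ℓ` of the set of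
pairs `P`. -/
def AdjoinsLifts {C C' : GlobExt} (j : GlobExt.Map C C') (P : Set (Admissible C))
    (ℓ : ∀ p : P, LiftsOf j p.1) : Prop :=
  ∀ (E : GlobExt) (F : GlobExt.Map C E) (L : ∀ p : P, LiftsOf F p.1),
    ∃! G : GlobExt.Map C' E,
      (∀ (A B : GlobSum) (f : C.Hom A B), G.map (j.map f) = F.map f) ∧
        ∀ p : P, SendsLift j F G p.1 (ℓ p) (L p)

/-- A tower presenting `C` as a colimit of successive universal adjunctions of lifts,
starting from `Θ₀`. -/
structure Tower (C : GlobExt) : Type 1 where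
  stage : ℕ → GlobExt
  stage_zero : ∀ A B : GlobSum, Function.Bijective fun f : A ⟶ B => (stage 0).ι f
  next : ∀ k, GlobExt.Map (stage k) (stage (k + 1))
  pairs : ∀ k, Set (Admissible (stage k))
  lift : ∀ k (p : pairs k), LiftsOf (next k) p.1
  universal : ∀ k, AdjoinsLifts (next k) (pairs k) (lift k)
  toColim : ∀ k, GlobExt.Map (stage k) C
  toColim_next : ∀ k (A B : GlobSum) (f : (stage k).Hom A B),
    (toColim (k + 1)).map ((next k).map f) = (toColim k).map f
  exists_stage : ∀ (A B : GlobSum) (f : C.Hom A B), ∃ k g, (toColim k).map g = f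

/-- The transition map `stage k → stage (k + d)` of a tower. -/
def Tower.push {C : GlobExt} (T : Tower C) {A B : GlobSum} (k : ℕ) :
    (d : ℕ) → (T.stage k).Hom A B → (T.stage (k + d)).Hom A B
  | 0, f => f
  | d + 1, f => (T.next (k + d)).map (T.push k d f)

/-- Maps identified in `C` are identified at a finite stage; with `Tower.exists_stage` this says
that `C` is the colimit of the stages. -/
def Tower.IsColimit {C : GlobExt} (T : Tower C) : Prop :=
  ∀ k (A B : GlobSum) (f g : (T.stage k).Hom A B),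
    (T.toColim k).map f = (T.toColim k).map g → ∃ d, T.push k d f = T.push k d g

/-- Coherators. -/
def IsCoherator (C : GlobExt) : Prop :=
  (∃ T : Tower C, T.IsColimit) ∧
    ∀ (n : ℕ) (S : GlobSum) (f g : C.Hom (disc n) S), Parallel C f g → Nonempty (Lift C f g)

/-- Choices of lifts of the pairs `(id, id)`, which give the identity cells. -/
def IdLift (C : GlobExt) : Type := ∀ n, Lift C (C.id (disc n)) (C.id (disc n))

theorem IsCoherator.nonempty_idLift {C : GlobExt} (hC : IsCoherator C) :
    Nonempty (IdLift C) :=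
  ⟨fun n => (hC.2 n _ _ _ (by cases n <;> simp [Parallel])).some⟩

/-! ## `C`-∞-groupoids and their weak equivalences -/

/-- The category of presheaves on a globular extension. -/
instance pshCategory (C : GlobExt) : Category.{0} (C.Objᵒᵖ ⥤ Type) := Functor.category

/-- `X : C ᵒᵖ ⥤ Type` sends globular sums to iterated fibre products. -/
def IsGroupoid {C : GlobExt} : ObjectProperty (C.Objᵒᵖ ⥤ Type) := fun X =>
  SendsSumsToLimits (fun A => X.obj (op (C.ob A))) (fun f => applyHom (X.map (C.hom f).op))

/-- The category of `C`-∞-groupoids. -/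
abbrev Gpd (C : GlobExt) : Type 1 := (IsGroupoid (C := C)).FullSubcategory

/-- The category structure on `C`-∞-groupoids. -/
instance gpdCategory (C : GlobExt) : Category.{0} (Gpd C) :=
  ObjectProperty.FullSubcategory.category _

namespace Gpd

variable {C : GlobExt}

/-- The set of `n`-cells. -/
def cells (X : Gpd C) (n : ℕ) : Type := X.obj.obj (op (C.ob (disc n)))

/-- The map on cells induced by a map of discs in `C`. -/
def pull (X : Gpd C) {m n : ℕ} (h : C.Hom (disc m) (disc n)) : X.cells n → X.cells m :=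
  applyHom (X.obj.map (Quiver.Hom.op (X := C.ob (disc m)) (Y := C.ob (disc n)) h))

/-- Source. -/
def s (X : Gpd C) {n : ℕ} : X.cells (n + 1) → X.cells n := X.pull (C.ι (src n))

/-- Target. -/
def t (X : Gpd C) {n : ℕ} : X.cells (n + 1) → X.cells n := X.pull (C.ι (tgt n))

/-- `1^n_x`. -/
def idCell (X : Gpd C) (κ : IdLift C) (x : X.cells 0) : (n : ℕ) → X.cells n
  | 0 => x
  | n + 1 => X.pull (κ n).1 (X.idCell κ x n)

/-- There is a cell from `a` to `b`. -/
def Connected (X : Gpd C) {n : ℕ} (a b : X.cells n) : Prop :=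
  ∃ h : X.cells (n + 1), X.s h = a ∧ X.t h = b

/-- `π₀`. -/
def π₀ (X : Gpd C) : Type := Quot (X.Connected (n := 0))

/-- The `(n+1)`-cells `1^n_x ⟶ 1^n_x`. -/
def Loops (X : Gpd C) (κ : IdLift C) (n : ℕ) (x : X.cells 0) : Type :=
  {a : X.cells (n + 1) // X.s a = X.idCell κ x n ∧ X.t a = X.idCell κ x n}

/-- `π_{n+1}(X, x)`. -/
def π (X : Gpd C) (κ : IdLift C) (n : ℕ) (x : X.cells 0) : Type :=
  Quot fun a b : X.Loops κ n x => X.Connected a.1 b.1

/-- The map on cells induced by a morphism. -/
def app {X Y : Gpd C} (f : X ⟶ Y) {n : ℕ} : X.cells n → Y.cells n :=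
  applyHom (f.hom.app (op (C.ob (disc n))))

theorem app_pull {X Y : Gpd C} (f : X ⟶ Y) {m n : ℕ} (h : C.Hom (disc m) (disc n))
    (a : X.cells n) : app f (X.pull h a) = Y.pull h (app f a) :=
  ConcreteCategory.congr_hom (f.hom.naturality _) a

theorem app_idCell {X Y : Gpd C} (f : X ⟶ Y) (κ : IdLift C) (x : X.cells 0) :
    ∀ n, app f (X.idCell κ x n) = Y.idCell κ (app f x) n
  | 0 => rfl
  | n + 1 => by simp [idCell, app_pull, app_idCell f κ x n]

theorem app_connected {X Y : Gpd C} (f : X ⟶ Y) {n : ℕ} {a b : X.cells n}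
    (h : X.Connected a b) : Y.Connected (app f a) (app f b) := by
  obtain ⟨c, rfl, rfl⟩ := h
  exact ⟨app f c, (app_pull f _ c).symm, (app_pull f _ c).symm⟩

/-- The map induced on `π₀`. -/
def π₀Map {X Y : Gpd C} (f : X ⟶ Y) : X.π₀ → Y.π₀ :=
  Quot.map (app f) fun _ _ => app_connected f

/-- The map induced on `π_{n+1}`. -/
def πMap {X Y : Gpd C} (f : X ⟶ Y) (κ : IdLift C) (n : ℕ) (x : X.cells 0) :
    X.π κ n x → Y.π κ n (app f x) :=
  Quot.map
    (fun a => ⟨app f a.1,
      ((app_pull f _ a.1).symm.trans (congrArg (app f) a.2.1)).trans (app_idCell f κ x n),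
      ((app_pull f _ a.1).symm.trans (congrArg (app f) a.2.2)).trans (app_idCell f κ x n)⟩)
    fun _ _ => app_connected f

end Gpd

/-- Weak equivalences of `C`-∞-groupoids: bijective on `π₀` and on every `π_n`, `n ≥ 1`.
(The maps on `π_n` are homomorphisms by naturality, so bijective means isomorphism.) -/
def weqGpd {C : GlobExt} (κ : IdLift C) : MorphismProperty (Gpd C) := fun X _ f =>
  Function.Bijective (Gpd.π₀Map f) ∧
    ∀ (n : ℕ) (x : X.cells 0), Function.Bijective (Gpd.πMap f κ n x)

/-! ## Spaces -/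

/-- The category of compactly generated spaces. -/
abbrev Space : Type 1 := CompactlyGenerated.{0, 0}

/-- The map induced on path components. -/
def pi0Map {X Y : Type} [TopologicalSpace X] [TopologicalSpace Y] (f : C(X, Y)) :
    ZerothHomotopy X → ZerothHomotopy Y :=
  Quotient.map f fun _ _ h => h.map f.continuous

/-- The map induced on homotopy groups. -/
def piMap {X Y : Type} [TopologicalSpace X] [TopologicalSpace Y] (f : C(X, Y)) (n : ℕ) (x : X) :
    HomotopyGroup (Fin n) X x → HomotopyGroup (Fin n) Y (f x) :=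
  Quotient.map (fun p => ⟨f.comp p.1, fun y hy => congrArg f (p.2 y hy)⟩)
    fun _ _ h => h.elim fun H => ⟨H.compContinuousMap f⟩

/-- Weak homotopy equivalences. -/
def weqTop : MorphismProperty Space := fun X _ f =>
  Function.Bijective (pi0Map f.hom.hom) ∧
    ∀ (n : ℕ) (x : X), Function.Bijective (piMap f.hom.hom (n + 1) x)

/-! ## Disc functors and the fundamental ∞-groupoid -/

/-- The closed unit `n`-disc. -/
abbrev Ball (n : ℕ) : Type := Metric.closedBall (0 : EuclideanSpace ℝ (Fin n)) 1

/-- The coordinates of a point of the disc. -/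
def coord {n : ℕ} (x : Ball n) (i : Fin n) : ℝ := x.1 i

/-- The coordinates of the point over `x` in the lower (`b = false`) or upper (`b = true`)
hemisphere. -/
def hemiCoord {n : ℕ} (b : Bool) (x : Ball n) : Fin (n + 1) → ℝ :=
  Fin.snoc (coord x) (bif b then Real.sqrt (1 - ‖x.1‖ ^ 2) else -Real.sqrt (1 - ‖x.1‖ ^ 2))

/-- A map of compactly generated spaces, as a function. -/
abbrev spaceApp {X Y : Space} (f : X ⟶ Y) : X → Y := fun x => f x

/-- In the charts, `f` is the hemisphere `b`. -/
def IsHemisphere {n : ℕ} {A B : Type} [TopologicalSpace A] [TopologicalSpace B] (eA : A ≃ₜ Ball n)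
    (eB : B ≃ₜ Ball (n + 1)) (f : A → B) (b : Bool) : Prop :=
  ∀ (p : A) (i : Fin (n + 1)), coord (eB (f p)) i = hemiCoord b (eA p) i

/-- A disc functor: it preserves globular sums, sends `D_n` to the closed `n`-disc, and
`σ`, `τ` to the lower and the upper hemisphere. -/
structure DiscFunctor (C : GlobExt) : Type 1 where
  F : C.Obj ⥤ Space
  preserves : ∀ Y : Space,
    SendsSumsToLimits (fun A => F.obj (C.ob A) ⟶ Y) (fun f h => F.map (C.hom f) ≫ h)
  e : ∀ n, F.obj (C.ob (disc n)) ≃ₜ Ball n
  e_src : ∀ n, IsHemisphere (e n) (e (n + 1)) (spaceApp (F.map (C.hom (src n)))) false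
  e_tgt : ∀ n, IsHemisphere (e n) (e (n + 1)) (spaceApp (F.map (C.hom (tgt n)))) true

/-- `Π_∞ = Hom(D(-), -)`. -/
def fundGpd {C : GlobExt} (D : DiscFunctor C) : Space ⥤ Gpd C :=
  ObjectProperty.lift _ (yoneda ⋙ (Functor.whiskeringLeft _ _ _).obj D.F.op)
    fun Y => D.preserves Y

/-- `Π_∞` preserves weak equivalences and induces an equivalence of localized categories. -/
def InducesEquivalence {C : GlobExt} (D : DiscFunctor C) (κ : IdLift C) : Prop :=
  ∃ h : weqTop ≤ (weqGpd κ).inverseImage (fundGpd D),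
    (({ functor := fundGpd D, map := h } : LocalizerMorphism weqTop (weqGpd κ)).localizedFunctor
      weqTop.Q (weqGpd κ).Q).IsEquivalence

/-- P259, Q1. -/
def Q1 : Prop :=
  ∀ C : GlobExt, IsCoherator C → ∃ D : DiscFunctor C, ∀ κ : IdLift C, InducesEquivalence D κ

end Vale.Agent.P259
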