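import Vale.Agent.P259.Defs

/-!
# The universal property of globular sums in `Θ₀` and in a globular extension
-/

noncomputable section

open CategoryTheory Opposite

namespace Vale.Agent.P259

namespace GHom

/-- The identity along an equality of dimensions. -/
def ofEq {a b : ℕ} (h : a = b) : GHom a b := h ▸ GHom.id a

@[simp] theorem ofEq_refl (a : ℕ) : ofEq (rfl : a = a) = .id a := rfl

theorem ofEq_comp {a b c : ℕ} (h : a = b) (h' : b = c) :
    (ofEq h).comp (ofEq h') = ofEq (h.trans h') := by subst h; rfl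

theorem bd_comp_ofEq {a b c : ℕ} (h : a < b) (β : Bool) (e : b = c) :
    (GHom.bd h β).comp (ofEq e) = .bd (e ▸ h) β := by subst e; rfl

theorem ofEq_comp_bd {a b c : ℕ} (h : a = b) (h' : b < c) (β : Bool) :
    (ofEq h).comp (.bd h' β) = .bd (h ▸ h') β := by subst h; rfl

theorem bd_comp_bd {a b c : ℕ} (h : a < b) (h' : b < c) (β β' : Bool) :
    (GHom.bd h β).comp (.bd h' β') = .bd (h.trans h') β := rfl

/-- The vertex of a disc on side `β`. -/
def vtx (β : Bool) : (n : ℕ) → GHom 0 n
  | 0 => .id 0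
  | n + 1 => .bd n.succ_pos β

theorem vtx_comp {n m : ℕ} (β : Bool) (g : GHom n m) (h : n ≠ 0) :
    (vtx β n).comp g = vtx β m := by
  cases g with
  | id => rw [GHom.comp_id']
  | bd hlt b =>
    obtain ⟨k, rfl⟩ := Nat.exists_eq_succ_of_ne_zero h
    obtain ⟨l, rfl⟩ := Nat.exists_eq_succ_of_ne_zero (show m ≠ 0 by omega)
    rfl

theorem vtx_comp_ofEq {n m : ℕ} (β : Bool) (e : n = m) :
    (vtx β n).comp (ofEq e) = vtx β m := by subst e; rw [ofEq_refl, GHom.comp_id']

end GHom

namespace GlobSum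

variable {A B D : GlobSum}

/-- The map on cells underlying a map of `Θ₀`. -/
def cellMap (f : A ⟶ B) {n : ℕ} : A.Cell n → B.Cell n := f.app (op ⟨n⟩)

theorem cellMap_pull (f : A ⟶ B) {m n : ℕ} (g : GHom m n) (c : A.Cell n) :
    cellMap f (c.pull g) = (cellMap f c).pull g :=
  ConcreteCategory.congr_hom (f.naturality (Quiver.Hom.op (show (⟨m⟩ : Globe) ⟶ ⟨n⟩ from g))) c

@[simp] theorem cellMap_id {n : ℕ} (c : A.Cell n) : cellMap (𝟙 A) c = c := rfl

@[simp] theorem cellMap_comp (f : A ⟶ B) (g : B ⟶ D) {n : ℕ} (c : A.Cell n) :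
    cellMap (f ≫ g) c = cellMap g (cellMap f c) := rfl

/-- The cell of a term of a table. -/
def top (A : GlobSum) (l : Fin (A.len + 1)) : A.Cell (A.i l) := Quot.mk _ ⟨l, .id _⟩

theorem mk_eq_pull {n : ℕ} (p : A.PreCell n) :
    (Quot.mk _ p : A.Cell n) = (A.top p.1).pull p.2 := by
  obtain ⟨l, g⟩ := p
  exact congrArg (fun q => Quot.mk _ (Sigma.mk l q)) (GHom.comp_id' g).symm

theorem glue_top (A : GlobSum) (l : Fin A.len) :
    (A.top l.castSucc).pull (.bd (A.lt_left l) true) =
      (A.top l.succ).pull (.bd (A.lt_right l) false) :=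
  Quot.sound ⟨l, .id _, rfl, rfl⟩

/-- Maps out of a globular sum are determined on the terms of the table. -/
theorem hom_ext {f g : A ⟶ B} (h : ∀ l, cellMap f (A.top l) = cellMap g (A.top l)) : f = g := by
  refine NatTrans.ext (funext fun a => ?_)
  ext x
  change cellMap f x = cellMap g x
  induction x using Quot.ind with
  | _ p => rw [mk_eq_pull, cellMap_pull, cellMap_pull, h]

/-- A family of cells that agrees on the glued faces gives a map of `Θ₀`. -/
def ofCells (x : ∀ l, B.Cell (A.i l))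
    (h : ∀ l : Fin A.len, (x l.castSucc).pull (.bd (A.lt_left l) true) =
      (x l.succ).pull (.bd (A.lt_right l) false)) : A ⟶ B where
  app _ := TypeCat.ofHom (Quot.lift (fun p => (x p.1).pull p.2) (by
    rintro p q ⟨l, g, rfl, rfl⟩
    change (x l.castSucc).pull (g.comp _) = (x l.succ).pull (g.comp _)
    rw [GlobSum.Cell.pull_comp, GlobSum.Cell.pull_comp, h l]))
  naturality a b f := by
    ext p
    induction p using Quot.ind with
    | _ p => exact GlobSum.Cell.pull_comp f.unop p.2 (x p.1)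

@[simp] theorem cellMap_ofCells_top (x : ∀ l, B.Cell (A.i l))
    (h : ∀ l : Fin A.len, (x l.castSucc).pull (.bd (A.lt_left l) true) =
      (x l.succ).pull (.bd (A.lt_right l) false)) (l : Fin (A.len + 1)) :
    cellMap (ofCells x h) (A.top l) = x l :=
  GlobSum.Cell.pull_id _

/-- The top cell of a disc. -/
def pt (n : ℕ) : (disc n).Cell n := Quot.mk _ ⟨(0 : Fin 1), .id n⟩

theorem cellMap_ofCell {n : ℕ} (c : A.Cell n) :
    cellMap (ofCell c) (pt n) = c :=
  GlobSum.Cell.pull_id c

theorem disc_hom_ext {n : ℕ} {f g : disc n ⟶ A}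
    (h : cellMap f (pt n) = cellMap g (pt n)) : f = g := by
  refine hom_ext fun l => ?_
  match l with
  | ⟨0, _⟩ => exact h

theorem ofCell_cellMap {n : ℕ} (f : disc n ⟶ A) :
    ofCell (cellMap f (pt n)) = f :=
  disc_hom_ext (cellMap_ofCell _)

/-- Cells are maps out of discs. -/
def cellEquiv (A : GlobSum) (n : ℕ) : A.Cell n ≃ (disc n ⟶ A) where
  toFun := ofCell
  invFun f := cellMap f (pt n)
  left_inv := cellMap_ofCell
  right_inv := ofCell_cellMap

theorem ofCell_comp {n : ℕ} (c : A.Cell n) (f : A ⟶ B) :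
    ofCell c ≫ f = ofCell (cellMap f c) :=
  disc_hom_ext <| (congrArg (cellMap f) (cellMap_ofCell c)).trans (cellMap_ofCell _).symm

theorem discMap_comp_ofCell {a b : ℕ} (g : GHom a b) (c : A.Cell b) :
    discMap g ≫ ofCell c = ofCell (c.pull g) := by
  refine disc_hom_ext ?_
  have e : cellMap (discMap g ≫ ofCell c) (pt a) =
      cellMap (ofCell c) ((Quot.mk _ ⟨(0 : Fin 1), g⟩ : (disc b).Cell a)) :=
    congrArg (cellMap (ofCell c))
      (cellMap_ofCell ((Quot.mk _ ⟨(0 : Fin 1), g⟩ : (disc b).Cell a)))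
  exact e.trans (cellMap_ofCell (c.pull g)).symm

@[simp] theorem discMap_id (a : ℕ) : discMap (.id a) = 𝟙 (disc a) :=
  disc_hom_ext (cellMap_ofCell _)

theorem discMap_comp {a b c : ℕ} (g : GHom a b) (h : GHom b c) :
    discMap (g.comp h) = discMap g ≫ discMap h := by
  have e := discMap_comp_ofCell g (Quot.mk _ ⟨(0 : Fin 1), h⟩ : (disc c).Cell b)
  exact e.symm

theorem src_src (n : ℕ) : src n ≫ src (n + 1) = src n ≫ tgt (n + 1) := by
  simp only [src, tgt, ← discMap_comp, GHom.bd_comp_bd]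

theorem tgt_src (n : ℕ) : tgt n ≫ src (n + 1) = tgt n ≫ tgt (n + 1) := by
  simp only [src, tgt, ← discMap_comp, GHom.bd_comp_bd]

theorem ofCell_mk {n : ℕ} (p : A.PreCell n) :
    ofCell (Quot.mk _ p : A.Cell n) = discMap p.2 ≫ incl A p.1 := by
  rw [mk_eq_pull, ← discMap_comp_ofCell]
  rfl

theorem glue_incl (A : GlobSum) (l : Fin A.len) :
    glueTgt A l ≫ incl A l.castSucc = glueSrc A l ≫ incl A l.succ := by
  exact (discMap_comp_ofCell _ (A.top l.castSucc)).trans
    ((congrArg ofCell (glue_top A l)).trans (discMap_comp_ofCell _ (A.top l.succ)).symm)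

/-- `Θ₀` sends globular sums to colimits. -/
theorem theta_preserves (B : GlobSum) :
    SendsSumsToLimits (fun A => A ⟶ B) (fun f h => f ≫ h) := by
  intro A x hx
  have hc : ∀ l : Fin A.len,
      (cellMap (x l.castSucc) (pt _)).pull (.bd (A.lt_left l) true) =
        (cellMap (x l.succ) (pt _)).pull (.bd (A.lt_right l) false) := by
    intro l
    have := hx l
    simp only [glueTgt, glueSrc] at this
    rw [← ofCell_cellMap (x l.castSucc), ← ofCell_cellMap (x l.succ), discMap_comp_ofCell,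
      discMap_comp_ofCell] at this
    exact (cellEquiv B _).injective this
  refine ⟨ofCells (fun l => cellMap (x l) (pt _)) hc, fun l => ?_, fun f hf => hom_ext fun l => ?_⟩
  · change incl A l ≫ _ = _
    exact (ofCell_comp (A.top l) _).trans
      ((congrArg ofCell (cellMap_ofCells_top _ hc l)).trans (ofCell_cellMap _))
  · rw [cellMap_ofCells_top, ← hf l]
    exact (congrArg (cellMap f) (cellMap_ofCell _)).symm

end GlobSum

/-! ## Maps out of globular sums in a globular extension -/

namespace GlobExt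

variable (C : GlobExt) {A B D : GlobSum}

theorem hom_comp (f : A ⟶ B) (g : B ⟶ D) : C.hom (f ≫ g) = C.hom f ≫ C.hom g := C.ι_comp f g

@[simp] theorem hom_id : C.hom (𝟙 A) = 𝟙 (C.ob A) := C.ι_id A

theorem hom_ext {X : C.Obj} {f g : C.ob A ⟶ X}
    (h : ∀ l, C.hom (incl A l) ≫ f = C.hom (incl A l) ≫ g) : f = g := by
  have hm : Matching (fun S => C.Hom S X) (fun e k => C.comp (C.ι e) k) A
      (fun l => C.hom (incl A l) ≫ f) := by
    intro l
    change C.hom (glueTgt A l) ≫ C.hom (incl A l.castSucc) ≫ f =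
      C.hom (glueSrc A l) ≫ C.hom (incl A l.succ) ≫ f
    rw [← Category.assoc, ← Category.assoc, ← hom_comp, ← hom_comp, GlobSum.glue_incl]
  exact (C.preserves X A _ hm).unique (fun _ => rfl) (fun l => (h l).symm)

/-- The map out of a globular sum given by a matching family. -/
def desc {X : C.Obj} (x : ∀ l, C.ob (disc (A.i l)) ⟶ X)
    (h : ∀ l : Fin A.len, C.hom (glueTgt A l) ≫ x l.castSucc = C.hom (glueSrc A l) ≫ x l.succ) :
    C.ob A ⟶ X :=
  (C.preserves X A x h).exists.choose

@[simp] theorem incl_desc {X : C.Obj} (x : ∀ l, C.ob (disc (A.i l)) ⟶ X)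
    (h : ∀ l : Fin A.len, C.hom (glueTgt A l) ≫ x l.castSucc = C.hom (glueSrc A l) ≫ x l.succ)
    (l : Fin (A.len + 1)) : C.hom (incl A l) ≫ C.desc x h = x l :=
  (C.preserves X A x h).exists.choose_spec l

theorem disc_hom_ext {n : ℕ} {X : C.Obj} {f g : C.ob (disc n) ⟶ X}
    (h : C.hom (incl (disc n) (0 : Fin 1)) ≫ f = C.hom (incl (disc n) (0 : Fin 1)) ≫ g) : f = g :=
  C.hom_ext fun l => by
    match l with
    | ⟨0, _⟩ => exact h

end GlobExt

end Vale.Agent.P259
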