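import Vale.Agent.P259.Theta
import Vale.Agent.P259.Disc.Free

/-!
# Maps out of a coherator

A coherator maps to every globular extension in which all parallel pairs have lifts.
-/

noncomputable section

open CategoryTheory

namespace Vale.Agent.P259

/-- Every parallel pair has a lift. -/
def GlobExt.HasLifts (E : GlobExt) : Prop :=
  ∀ (n : ℕ) (S : GlobSum) (f g : E.Hom (disc n) S), Parallel E f g → Nonempty (Lift E f g)

theorem IsCoherator.hasLifts {C : GlobExt} (hC : IsCoherator C) : C.HasLifts := hC.2

/-- A coherator maps to every globular extension with all lifts. -/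
theorem IsCoherator.exists_map {C : GlobExt} (hC : IsCoherator C) (E : GlobExt)
    (hE : E.HasLifts) : Nonempty (GlobExt.Map C E) := by
  obtain ⟨T, hT⟩ := hC.1
  have step : ∀ k (F : GlobExt.Map (T.stage k) E), ∃ G : GlobExt.Map (T.stage (k + 1)) E,
      ∀ (A B : GlobSum) (f : (T.stage k).Hom A B), G.map ((T.next k).map f) = F.map f := fun k F =>
    let L : ∀ p : T.pairs k, Lift E (F.map p.1.f) (F.map p.1.g) := fun p =>
      (hE _ _ _ _ (F.parallel p.1.parallel)).some
    ⟨_, (T.universal k E F L).exists.choose_spec.1⟩
  let Fk : ∀ k, GlobExt.Map (T.stage k) E := fun k =>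
    Nat.rec (T.start E) (fun k F => (step k F).choose) k
  obtain ⟨F, -⟩ := T.exists_desc hT Fk fun k => (step k (Fk k)).choose_spec
  exact ⟨F⟩

end Vale.Agent.P259
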