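import Vale.Agent.P259.Suspension
import Vale.Agent.P259.Five.Hom

/-!
# The end points, suspension and wedges of a coherator (the interface of step 5)
-/

noncomputable section

open CategoryTheory Opposite Vale.Agent.P259.GlobSum

namespace Vale.Agent.P259

namespace Gpd

variable {C : GlobExt} (X : Gpd C)

/-- A groupoid sends suspended globular sums to iterated fibre products. -/
theorem shift_val (A : GlobSum) (x : ∀ l, X.val (disc (A.i l + 1)))
    (hx : ∀ l : Fin A.len, X.act (C.ι (shiftMap (glueTgt A l))) (x l.castSucc) =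
      X.act (C.ι (shiftMap (glueSrc A l))) (x l.succ)) :
    ∃! w : X.val A.shift, ∀ l, X.act (C.ι (shiftMap (incl A l))) w = x l := by
  have sm : ∀ {a b : ℕ} (g : GHom a b) (u : X.val (disc (b + 1))),
      X.act (C.ι (shiftMap (discMap g))) u = X.act (C.ι (discMap g.shift)) u := fun g u =>
    congrArg (fun f => X.act (C.ι f) u) (shiftMap_discMap g)
  have e : ∀ {a b c : ℕ} (g : GHom a b) (g' : GHom b c) (u : X.val (disc c)),
      X.act (C.ι (discMap g)) (X.act (C.ι (discMap g')) u) =
        X.act (C.ι (discMap (g.comp g'))) u := fun g g' u =>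
    (X.act_ι_comp _ _ u).trans (congrArg (fun f => X.act (C.ι f) u) (discMap_comp g g').symm)
  let y : ∀ l, X.val (disc (A.shift.i l)) := fun l =>
    X.act (C.ι (discMap (GHom.ofEq (A.shift_i l)))) (x (A.unshift l))
  have hy : Matching (fun S => X.val S) (fun f => X.act (C.ι f)) A.shift y := by
    intro l
    set l' : Fin A.len := ⟨l.1, lt_of_lt_of_eq l.2 A.len_shift⟩
    have h := ((sm _ (x l'.castSucc)).symm.trans (hx l')).trans (sm _ (x l'.succ))
    have h2 := congrArg (fun k => X.act (C.ι (discMap (GHom.ofEq (A.shift_j l')))) k) h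
    refine ((e _ _ _).trans ?_).trans ((h2.trans (e _ _ _)).trans ?_)
    · refine Eq.trans ?_ (e _ _ _).symm
      exact congrArg (fun g => X.act (C.ι (discMap g)) (x l'.castSucc))
        ((GHom.bd_comp_ofEq _ _ _).trans (GHom.ofEq_comp_bd _ _ _).symm)
    · refine Eq.trans ?_ (e _ _ _).symm
      exact congrArg (fun g => X.act (C.ι (discMap g)) (x l'.succ))
        ((GHom.ofEq_comp_bd _ _ _).trans (GHom.bd_comp_ofEq _ _ _).symm)
  obtain ⟨w, hw, huniq⟩ := X.property A.shift y hy
  have hid : ∀ {n : ℕ} (u : X.val (disc n)), X.act (C.ι (discMap (.id n))) u = u := fun u =>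
    (congrArg (fun f => X.act (C.ι f) u) (discMap_id _)).trans (X.act_ι_id u)
  refine ⟨w, fun l => ?_, fun w' hw' => huniq w' fun l => ?_⟩
  · refine (congrArg (fun f => X.act (C.ι f) w) (shiftMap_incl A l)).trans ?_
    refine (X.act_ι_comp _ _ w).symm.trans ((congrArg (X.act _) (hw (A.upshift l))).trans ?_)
    refine (e _ _ _).trans ?_
    rw [GHom.ofEq_comp]
    exact hid _
  · change _ = X.act (C.ι (discMap (GHom.ofEq (A.shift_i l)))) (x (A.unshift l))
    refine Eq.trans ?_ (congrArg (X.act _) (hw' (A.unshift l)))
    refine Eq.trans ?_ (X.act_ι_comp _ _ w').symm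
    refine congrArg (fun k => X.act (C.ι k) w') ?_
    refine Eq.trans ?_ (congrArg (discMap (GHom.ofEq (A.shift_i l)) ≫ ·)
      (shiftMap_incl A (A.unshift l))).symm
    refine Eq.trans ?_ (Category.assoc _ _ _)
    refine Eq.trans ?_ (congrArg (· ≫ incl A.shift l) (discMap_comp _ _))
    exact (((congrArg (fun g => discMap g ≫ incl A.shift l)
      (GHom.ofEq_comp (A.shift_i l) (A.shift_i l).symm)).trans
      (congrArg (· ≫ incl A.shift l) (discMap_id _))).trans (Category.id_comp _)).symm

end Gpd

/-- The shape of a coherator given by a suspension. -/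
def Suspension.shape {C : GlobExt} (S : Suspension C) : Shape C where
  first := C.first
  last := C.last
  first_zero := C.first_disc_zero
  last_zero := C.last_disc_zero
  first_one := C.disc_one_first
  last_one := C.disc_one_last
  suspMap h := S.susp h
  suspMap_src n := (S.susp_hom (src n)).trans (congrArg C.hom (shiftMap_discMap _))
  suspMap_tgt n := (S.susp_hom (tgt n)).trans (congrArg C.hom (shiftMap_discMap _))
  suspMap_id := S.susp_id
  suspMap_comp f g := S.susp_comp f g
  suspMap_first h := (S.ends_susp h).1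
  suspMap_last h := (S.ends_susp h).2
  susp_sums X := fun A x hx => by
    have key : ∀ {P Q : GlobSum} (f : P ⟶ Q) (u : X.val Q.shift),
        X.act (S.susp (C.hom f)) u = X.act (C.ι (shiftMap f)) u := fun f u =>
      congrArg (fun k => X.act k u) (S.susp_hom f)
    obtain ⟨w, hw, hu⟩ := X.shift_val A x fun l =>
      (key _ (x l.castSucc)).symm.trans ((hx l).trans (key _ (x l.succ)))
    exact ⟨w, fun l => (key _ w).trans (hw l),
      fun w' hw' => hu w' fun l => (key _ w').symm.trans (hw' l)⟩
  wedge T R := C.wedge T.shift R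
  inl T R := C.winl T.shift R
  inr T R := C.winr T.shift R
  glue T R := C.wedge_glue T.shift R
  first_wedge T R := C.first_winl T.shift R
  wedge_hom T R U f g h := C.wedge_val (repGpd C U) f g h
  wedge_val X T R f g h := C.wedge_val X f g h

theorem IsCoherator.nonempty_shape {C : GlobExt} (hC : IsCoherator C) : Nonempty (Shape C) :=
  hC.nonempty_suspension.map fun S => S.shape

/-- A chosen shape of a coherator. -/
def shape {C : GlobExt} (hC : IsCoherator C) : Shape C := hC.nonempty_shape.some

end Vale.Agent.P259
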