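import Vale.Agent.P259.Theta

/-!
# Suspension of globular sums in `Θ₀`
-/

noncomputable section

open CategoryTheory

namespace Vale.Agent.P259

namespace GHom

/-- The shift of a globe map by one dimension. -/
def shift : {a b : ℕ} → GHom a b → GHom (a + 1) (b + 1)
  | _, _, .id a => .id (a + 1)
  | _, _, .bd h β => .bd (Nat.succ_lt_succ h) β

theorem shift_comp {a b c : ℕ} (g : GHom a b) (h : GHom b c) :
    (g.comp h).shift = g.shift.comp h.shift := by
  cases g <;> cases h <;> rfl

theorem shift_ofEq {a b : ℕ} (e : a = b) : (ofEq e).shift = ofEq (congrArg (· + 1) e) := by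
  subst e; rfl

theorem vtx_shift {a b : ℕ} (β : Bool) (g : GHom a b) :
    (vtx β (a + 1)).comp g.shift = vtx β (b + 1) :=
  vtx_comp β g.shift a.succ_ne_zero

end GHom

theorem ValidTail.shift : ∀ {i : ℕ} {r : List (ℕ × ℕ)}, ValidTail i r →
    ValidTail (i + 1) (r.map fun p => (p.1 + 1, p.2 + 1))
  | _, [], _ => trivial
  | _, _ :: _, h => ⟨Nat.succ_lt_succ h.1, Nat.succ_lt_succ h.2.1, h.2.2.shift⟩

namespace GlobSum

/-- Add one to every entry of a table. -/
def shift (A : GlobSum) : GlobSum :=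
  ⟨A.head + 1, A.rest.map fun p => (p.1 + 1, p.2 + 1), A.valid.shift⟩

theorem shift_disc (n : ℕ) : (disc n).shift = disc (n + 1) := rfl

theorem len_shift (A : GlobSum) : A.shift.len = A.len := List.length_map _

/-- The term of `A` under a term of its suspension. -/
def unshift (A : GlobSum) (l : Fin (A.shift.len + 1)) : Fin (A.len + 1) :=
  ⟨l.1, lt_of_lt_of_eq l.2 (congrArg (· + 1) A.len_shift)⟩

/-- The term of the suspension over a term of `A`. -/
def upshift (A : GlobSum) (l : Fin (A.len + 1)) : Fin (A.shift.len + 1) :=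
  ⟨l.1, lt_of_lt_of_eq l.2 (congrArg (· + 1) A.len_shift).symm⟩

/-- The gluing of the suspension over a gluing of `A`. -/
def upshiftJ (A : GlobSum) (l : Fin A.len) : Fin A.shift.len :=
  ⟨l.1, lt_of_lt_of_eq l.2 A.len_shift.symm⟩

theorem shift_i (A : GlobSum) (l : Fin (A.shift.len + 1)) :
    A.shift.i l = A.i (A.unshift l) + 1 := by
  obtain ⟨v, hv⟩ := l
  cases v with
  | zero => rfl
  | succ v =>
    exact congrArg Prod.snd (List.getElem_map (fun p : ℕ × ℕ => (p.1 + 1, p.2 + 1))
      (h := lt_of_lt_of_eq (Nat.lt_of_succ_lt_succ hv) rfl))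

theorem shift_j (A : GlobSum) (l : Fin A.len) : A.shift.j (A.upshiftJ l) = A.j l + 1 := by
  obtain ⟨v, hv⟩ := l
  exact congrArg Prod.fst (List.getElem_map (fun p : ℕ × ℕ => (p.1 + 1, p.2 + 1))
    (h := lt_of_lt_of_eq hv A.len_shift.symm))

theorem shift_i' (A : GlobSum) (l : Fin (A.len + 1)) : A.shift.i (A.upshift l) = A.i l + 1 :=
  A.shift_i (A.upshift l)

variable {A B D : GlobSum}

/-- The suspension of a cell. -/
def shiftCell {n : ℕ} : A.Cell n → A.shift.Cell (n + 1) :=
  Quot.map (fun p => ⟨A.upshift p.1, p.2.shift.comp (GHom.ofEq (A.shift_i' p.1).symm)⟩)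
    (by
      rintro p q ⟨l, g, rfl, rfl⟩
      refine ⟨A.upshiftJ l, g.shift.comp (GHom.ofEq (A.shift_j l).symm), ?_, ?_⟩
      · refine congrArg (Sigma.mk (β := fun k => GHom (n + 1) (A.shift.i k))
          (A.upshiftJ l).castSucc) ?_
        rw [GHom.shift_comp, GHom.comp_assoc, GHom.comp_assoc, GHom.ofEq_comp_bd]
        exact congrArg _ (GHom.bd_comp_ofEq _ _ _)
      · refine congrArg (Sigma.mk (β := fun k => GHom (n + 1) (A.shift.i k))
          (A.upshiftJ l).succ) ?_
        rw [GHom.shift_comp, GHom.comp_assoc, GHom.comp_assoc, GHom.ofEq_comp_bd]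
        exact congrArg _ (GHom.bd_comp_ofEq _ _ _))

theorem shiftCell_pull {m n : ℕ} (g : GHom m n) (c : A.Cell n) :
    shiftCell (c.pull g) = (shiftCell c).pull g.shift := by
  induction c using Quot.ind with
  | _ p =>
    refine congrArg (fun q => Quot.mk _ (Sigma.mk (A.upshift p.1) q)) ?_
    rw [GHom.shift_comp, GHom.comp_assoc]

theorem shift_top (l : Fin (A.shift.len + 1)) :
    A.shift.top l = (shiftCell (A.top (A.unshift l))).pull (GHom.ofEq (A.shift_i l)) := by
  refine congrArg (fun q => Quot.mk _ (Sigma.mk l q)) ?_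
  show GHom.id _ = (GHom.ofEq _).comp ((GHom.id _).comp (GHom.ofEq _))
  rw [show (GHom.id (A.i (A.unshift l) + 1)).comp (GHom.ofEq (A.shift_i l).symm) =
    GHom.ofEq (A.shift_i l).symm from rfl, GHom.ofEq_comp, GHom.ofEq_refl]

/-- The suspension of a map of `Θ₀`. -/
def shiftMap (f : A ⟶ B) : A.shift ⟶ B.shift :=
  ofCells (fun l => (shiftCell (cellMap f (A.top (A.unshift l)))).pull
      (GHom.ofEq (A.shift_i l)))
    (fun l => by
      set l' : Fin A.len := ⟨l.1, lt_of_lt_of_eq l.2 A.len_shift⟩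
      have h := congrArg (fun c => (shiftCell (cellMap f c)).pull
        (GHom.ofEq (A.shift_j l'))) (glue_top A l')
      simp only [cellMap_pull, shiftCell_pull, ← GlobSum.Cell.pull_comp] at h
      rw [← GlobSum.Cell.pull_comp, ← GlobSum.Cell.pull_comp]
      refine Eq.trans ?_ (h.trans ?_)
      · refine congrArg (fun g => GlobSum.Cell.pull g (shiftCell (cellMap f (A.top l'.castSucc)))) ?_
        exact (GHom.bd_comp_ofEq _ _ _).trans (GHom.ofEq_comp_bd _ _ _).symm
      · refine congrArg (fun g => GlobSum.Cell.pull g (shiftCell (cellMap f (A.top l'.succ)))) ?_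
        exact (GHom.ofEq_comp_bd _ _ _).trans (GHom.bd_comp_ofEq _ _ _).symm)

theorem cellMap_shiftMap (f : A ⟶ B) {n : ℕ} (c : A.Cell n) :
    cellMap (shiftMap f) (shiftCell c) = shiftCell (cellMap f c) := by
  induction c using Quot.ind with
  | _ p =>
    rw [mk_eq_pull, shiftCell_pull, cellMap_pull, cellMap_pull, shiftCell_pull]
    refine congrArg (GlobSum.Cell.pull p.2.shift) ?_
    obtain ⟨l, -⟩ := p
    have e : (shiftCell (A.top l) : A.shift.Cell _) = (A.shift.top (A.upshift l)).pull
        (GHom.ofEq (A.shift_i' l).symm) := by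
      refine (mk_eq_pull _).trans ?_
      exact congrArg (fun g => GlobSum.Cell.pull g (A.shift.top (A.upshift l))) rfl
    refine (congrArg (cellMap (shiftMap f)) e).trans ((cellMap_pull _ _ _).trans ?_)
    refine (congrArg (GlobSum.Cell.pull _) (cellMap_ofCells_top _ _ _)).trans ?_
    refine (GlobSum.Cell.pull_comp _ _ _).symm.trans ?_
    rw [GHom.ofEq_comp]
    exact GlobSum.Cell.pull_id _

theorem shift_hom_ext {f g : A.shift ⟶ B}
    (h : ∀ l, cellMap f (shiftCell (A.top l)) = cellMap g (shiftCell (A.top l))) : f = g :=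
  hom_ext fun l => by rw [shift_top, cellMap_pull, cellMap_pull, h]

theorem shiftMap_id (A : GlobSum) : shiftMap (𝟙 A) = 𝟙 A.shift :=
  shift_hom_ext fun _ => (cellMap_shiftMap _ _).trans rfl

theorem shiftMap_comp (f : A ⟶ B) (g : B ⟶ D) : shiftMap (f ≫ g) = shiftMap f ≫ shiftMap g :=
  shift_hom_ext fun l => by
    rw [cellMap_comp, cellMap_shiftMap, cellMap_shiftMap, cellMap_shiftMap, cellMap_comp]

theorem shiftMap_ofCell {n : ℕ} (c : A.Cell n) :
    shiftMap (ofCell c) = ofCell (shiftCell c) := by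
  refine disc_hom_ext ?_
  exact ((cellMap_shiftMap (ofCell c) (pt n)).trans (congrArg shiftCell (cellMap_ofCell c))).trans
    (cellMap_ofCell (shiftCell c)).symm

theorem shiftMap_discMap {a b : ℕ} (g : GHom a b) : shiftMap (discMap g) = discMap g.shift := by
  refine (shiftMap_ofCell _).trans (congrArg ofCell ?_)
  exact congrArg (fun q => Quot.mk _ (Sigma.mk (0 : Fin 1) q)) (GHom.comp_id' g.shift)

theorem shiftMap_incl (A : GlobSum) (l : Fin (A.len + 1)) :
    shiftMap (incl A l) =
      discMap (GHom.ofEq (A.shift_i' l).symm) ≫ incl A.shift (A.upshift l) :=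
  (shiftMap_ofCell (A.top l)).trans <| ((congrArg ofCell (mk_eq_pull _)).trans
    (discMap_comp_ofCell _ _).symm)

/-- The endpoint of a suspended table. -/
theorem shift_endpoint (β : Bool) (l : Fin (A.shift.len + 1)) :
    (A.shift.top l).pull (GHom.vtx β (A.shift.i l)) =
      (A.shift.top (0 : Fin (A.shift.len + 1))).pull (GHom.vtx β _) := by
  induction l using Fin.induction with
  | zero => rfl
  | succ l ih =>
    refine Eq.trans ?_ ih
    have hj : A.shift.j l ≠ 0 := by
      have := A.shift_j ⟨l.1, lt_of_lt_of_eq l.2 A.len_shift⟩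
      have e : A.upshiftJ ⟨l.1, lt_of_lt_of_eq l.2 A.len_shift⟩ = l := rfl
      rw [e] at this
      omega
    rw [← GHom.vtx_comp β (.bd (A.shift.lt_right l) false) hj,
      ← GHom.vtx_comp β (.bd (A.shift.lt_left l) true) hj, GlobSum.Cell.pull_comp,
      GlobSum.Cell.pull_comp, glue_top]

/-- The vertices of a suspended cell are the end points of the suspension. -/
theorem shiftCell_vtx (β : Bool) {n : ℕ} (c : A.Cell n) :
    (shiftCell c).pull (GHom.vtx β (n + 1)) =
      (A.shift.top (0 : Fin (A.shift.len + 1))).pull (GHom.vtx β _) := by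
  induction c using Quot.ind with
  | _ p =>
    refine Eq.trans ?_ (shift_endpoint β (A.upshift p.1))
    refine (congrArg (GlobSum.Cell.pull _) (mk_eq_pull _)).trans ?_
    rw [← GlobSum.Cell.pull_comp, ← GHom.comp_assoc, GHom.vtx_shift, GHom.vtx_comp_ofEq]

end GlobSum

end Vale.Agent.P259
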