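import Vale.Agent.P259.Cons

/-!
# Wedges of globular sums: the pushout along last and first vertices
-/

noncomputable section

open CategoryTheory Vale.Agent.P259.GlobSum

namespace Vale.Agent.P259

theorem GHom.vtx_eq_bd (β : Bool) {n : ℕ} (h : 0 < n) : GHom.vtx β n = .bd h β := by
  obtain ⟨k, rfl⟩ := Nat.exists_eq_succ_of_ne_zero h.ne'
  rfl

theorem GlobSum.eq_disc_zero {A : GlobSum} (h : A.head = 0) : A = disc 0 := by
  obtain ⟨a, r, v⟩ := A
  obtain rfl : a = 0 := h
  cases r with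
  | nil => rfl
  | cons p r => exact absurd v.1 (Nat.not_lt_zero _)

namespace GlobExt

variable (C : GlobExt)

theorem first_eq (A : GlobSum) : C.first A = C.vx false A.head ≫ C.hom (inclHead A) := rfl

@[simp] theorem vx_zero (β : Bool) : C.vx β 0 = 𝟙 (C.ob (disc 0)) :=
  (congrArg C.hom (discMap_id 0)).trans C.hom_id

theorem first_disc_zero : C.first (disc 0) = 𝟙 (C.ob (disc 0)) :=
  (C.first_disc 0).trans (C.vx_zero _)

theorem last_disc_zero : C.last (disc 0) = 𝟙 (C.ob (disc 0)) :=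
  (C.last_disc 0).trans (C.vx_zero _)

theorem inclHead_disc (n : ℕ) : inclHead (disc n) = 𝟙 (disc n) := incl_disc n

theorem exists_wedge (S T : GlobSum) :
    ∃ (W : GlobSum) (l : C.ob S ⟶ C.ob W) (r : C.ob T ⟶ C.ob W),
      (∀ (X : Gpd C) (a : X.val S) (b : X.val T), X.act (C.last S) a = X.act (C.first T) b →
        ∃! w : X.val W, X.act l w = a ∧ X.act r w = b) ∧
      C.last S ≫ l = C.first T ≫ r ∧ C.first S ≫ l = C.first W ∧ C.last T ≫ r = C.last W ∧
      (0 < S.head → ∃ e : S.head = W.head,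
        C.hom (inclHead S) ≫ l = C.hom (discMap (GHom.ofEq e) ≫ inclHead W)) := by
  induction S using GlobSum.induction with
  | hd n =>
    rcases Nat.eq_zero_or_pos n with rfl | hn
    · refine ⟨T, C.first T, 𝟙 _, fun X a b h => ⟨b, ⟨?_, X.act_id b⟩, fun w hw => ?_⟩, ?_, ?_,
        Category.comp_id _, fun h => absurd h (lt_irrefl 0)⟩
      · rw [last_disc_zero] at h
        exact h.symm.trans (X.act_id a)
      · exact (X.act_id w).symm.trans hw.2
      · rw [last_disc_zero, Category.id_comp, Category.comp_id]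
      · rw [first_disc_zero, Category.id_comp]
    · rcases Nat.eq_zero_or_pos T.head with hT | hT
      · obtain rfl := GlobSum.eq_disc_zero hT
        refine ⟨disc n, 𝟙 _, C.last (disc n), fun X a b h => ⟨a, ⟨X.act_id a, ?_⟩, fun w hw => ?_⟩,
          ?_, Category.comp_id _, ?_, fun _ => ⟨rfl, ?_⟩⟩
        · rw [first_disc_zero] at h
          exact h.trans (X.act_id b)
        · exact (X.act_id w).symm.trans hw.1
        · rw [first_disc_zero, Category.id_comp, Category.comp_id]
        · rw [last_disc_zero, Category.id_comp]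
        · simp
      · have e1 : C.last (disc n) = C.hom (discMap (.bd hn true)) :=
          (C.last_disc n).trans (congrArg (fun g => C.hom (discMap g)) (GHom.vtx_eq_bd true hn))
        have e2 : C.first T = C.hom (discMap (.bd hT false) ≫ inclHead T) :=
          (congrArg (fun g => C.hom (discMap g) ≫ C.hom (inclHead T))
            (GHom.vtx_eq_bd false hT)).trans (C.hom_comp _ _).symm
        refine ⟨GlobSum.cons n 0 T hn hT, C.hom (GlobSum.inl hn hT), C.hom (GlobSum.inr hn hT), ?_,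
          ?_, ?_, (C.last_cons hn hT).symm, fun _ => ⟨rfl, ?_⟩⟩
        · intro X a b h
          rw [e1, e2] at h
          exact X.cons_val hn hT a b h
        · rw [e1, e2, ← hom_comp, ← hom_comp, cons_glue]
        · rw [first_disc, first_cons]
        · exact ((congrArg (fun g => C.hom g ≫ C.hom (GlobSum.inl hn hT)) (inclHead_disc n)).trans
            ((C.hom_comp _ _).symm.trans (congrArg C.hom (Category.id_comp _)))).trans
            (congrArg C.hom (((congrArg (· ≫ _) (discMap_id n)).trans (Category.id_comp _)).symm))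
  | hc i j A h₁ h₂ ih =>
    obtain ⟨W, l, r, hval, hglue, hfirst, hlast, hhead⟩ := ih
    obtain ⟨e, he⟩ := hhead (lt_of_le_of_lt (Nat.zero_le j) h₂)
    have h₂' : j < W.head := e ▸ h₂
    have g : C.hom (discMap (.bd h₂ false) ≫ inclHead A) ≫ l =
        C.hom (discMap (.bd h₂' false) ≫ inclHead W) := by
      rw [hom_comp, Category.assoc, he, ← hom_comp, ← Category.assoc, ← discMap_comp,
        GHom.bd_comp_ofEq]
    -- the map of the longer table
    obtain ⟨u, hu1, hu2⟩ : ∃ u : C.ob (GlobSum.cons i j A h₁ h₂) ⟶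
        C.ob (GlobSum.cons i j W h₁ h₂'),
        C.hom (GlobSum.inl h₁ h₂) ≫ u = C.hom (GlobSum.inl h₁ h₂') ∧
          C.hom (GlobSum.inr h₁ h₂) ≫ u = l ≫ C.hom (GlobSum.inr h₁ h₂') := by
      refine ((repGpd C (GlobSum.cons i j W h₁ h₂')).cons_val h₁ h₂
        (C.hom (GlobSum.inl h₁ h₂')) (l ≫ C.hom (GlobSum.inr h₁ h₂')) ?_).exists
      change C.hom _ ≫ C.hom (GlobSum.inl h₁ h₂') = C.hom _ ≫ (l ≫ _)
      rw [← Category.assoc, g, ← hom_comp, ← hom_comp, cons_glue]
    refine ⟨GlobSum.cons i j W h₁ h₂', u, r ≫ C.hom (GlobSum.inr h₁ h₂'), ?_, ?_, ?_, ?_,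
      fun _ => ⟨rfl, ?_⟩⟩
    · intro X a b h
      rw [last_cons] at h
      obtain ⟨w', ⟨hw1, hw2⟩, hw'⟩ := hval X (X.act (C.hom (GlobSum.inr h₁ h₂)) a) b
        ((X.act_comp _ _ _).symm.trans h)
      obtain ⟨w, ⟨hwl, hwr⟩, hw⟩ := X.cons_val h₁ h₂' (X.act (C.hom (GlobSum.inl h₁ h₂)) a) w' (by
        refine Eq.trans ?_ (congrArg (fun k => X.act k w') g)
        refine Eq.trans ?_ (X.act_comp _ _ _).symm
        refine Eq.trans ?_ (congrArg (X.act _) hw1).symm
        exact (X.act_ι_comp _ _ a).trans ((congrArg (fun f => X.act (C.ι f) a)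
          (cons_glue h₁ h₂)).trans (X.act_ι_comp _ _ a).symm))
      have hle : ∀ z : X.val (GlobSum.cons i j W h₁ h₂'),
          X.act (C.hom (GlobSum.inl h₁ h₂)) (X.act u z) =
            X.act (C.hom (GlobSum.inl h₁ h₂')) z := fun z =>
        (X.act_comp _ _ _).symm.trans (congrArg (fun k => X.act k z) hu1)
      have hre : ∀ z : X.val (GlobSum.cons i j W h₁ h₂'),
          X.act (C.hom (GlobSum.inr h₁ h₂)) (X.act u z) =
            X.act l (X.act (C.hom (GlobSum.inr h₁ h₂')) z) := fun z =>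
        ((X.act_comp _ _ _).symm.trans (congrArg (fun k => X.act k z) hu2)).trans (X.act_comp _ _ _)
      refine ⟨w, ⟨?_, (X.act_comp _ _ _).trans ((congrArg (X.act r) hwr).trans hw2)⟩,
        fun z hz => hw z ⟨?_, hw' _ ⟨?_, ?_⟩⟩⟩
      · obtain ⟨a₀, -, ha₀⟩ := X.cons_val h₁ h₂ (X.act (C.hom (GlobSum.inl h₁ h₂)) a)
          (X.act (C.hom (GlobSum.inr h₁ h₂)) a) ((X.act_ι_comp _ _ a).trans
            ((congrArg (fun f => X.act (C.ι f) a) (cons_glue h₁ h₂)).trans
              (X.act_ι_comp _ _ a).symm))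
        exact (ha₀ _ ⟨(hle w).trans hwl, (hre w).trans ((congrArg (X.act l) hwr).trans hw1)⟩).trans
          (ha₀ a ⟨rfl, rfl⟩).symm
      · exact (hle z).symm.trans (congrArg (X.act _) hz.1)
      · exact (hre z).symm.trans (congrArg (X.act _) hz.1)
      · exact (X.act_comp _ _ _).symm.trans hz.2
    · rw [last_cons, Category.assoc, hu2, ← Category.assoc, hglue, Category.assoc]
    · rw [first_cons, Category.assoc, hu1, ← first_cons]
    · rw [← Category.assoc, hlast, ← last_cons]
    · refine hu1.trans (congrArg C.hom ?_)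
      exact ((congrArg (· ≫ _) (discMap_id i)).trans (Category.id_comp _)).symm

/-- The wedge of two globular sums. -/
def wedge (S T : GlobSum) : GlobSum := (C.exists_wedge S T).choose

/-- The left inclusion into a wedge. -/
def winl (S T : GlobSum) : C.ob S ⟶ C.ob (C.wedge S T) :=
  (C.exists_wedge S T).choose_spec.choose

/-- The right inclusion into a wedge. -/
def winr (S T : GlobSum) : C.ob T ⟶ C.ob (C.wedge S T) :=
  (C.exists_wedge S T).choose_spec.choose_spec.choose

/-- A groupoid on a wedge is the fibre product over the vertex. -/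
theorem wedge_val (X : Gpd C) {S T : GlobSum} (a : X.val S) (b : X.val T)
    (h : X.act (C.last S) a = X.act (C.first T) b) :
    ∃! w : X.val (C.wedge S T), X.act (C.winl S T) w = a ∧ X.act (C.winr S T) w = b :=
  (C.exists_wedge S T).choose_spec.choose_spec.choose_spec.1 X a b h

theorem wedge_glue (S T : GlobSum) : C.last S ≫ C.winl S T = C.first T ≫ C.winr S T :=
  (C.exists_wedge S T).choose_spec.choose_spec.choose_spec.2.1

@[reassoc (attr := simp)] theorem first_winl (S T : GlobSum) :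
    C.first S ≫ C.winl S T = C.first (C.wedge S T) :=
  (C.exists_wedge S T).choose_spec.choose_spec.choose_spec.2.2.1

@[reassoc (attr := simp)] theorem last_winr (S T : GlobSum) :
    C.last T ≫ C.winr S T = C.last (C.wedge S T) :=
  (C.exists_wedge S T).choose_spec.choose_spec.choose_spec.2.2.2.1

variable {S T R : GlobSum}

/-- The map out of a wedge. -/
def wdesc (f : C.ob S ⟶ C.ob R) (g : C.ob T ⟶ C.ob R) (h : C.last S ≫ f = C.first T ≫ g) :
    C.ob (C.wedge S T) ⟶ C.ob R :=
  (C.wedge_val (repGpd C R) f g h).exists.choose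

@[reassoc (attr := simp)] theorem winl_wdesc (f : C.ob S ⟶ C.ob R) (g : C.ob T ⟶ C.ob R)
    (h : C.last S ≫ f = C.first T ≫ g) : C.winl S T ≫ C.wdesc f g h = f :=
  (C.wedge_val (repGpd C R) f g h).exists.choose_spec.1

@[reassoc (attr := simp)] theorem winr_wdesc (f : C.ob S ⟶ C.ob R) (g : C.ob T ⟶ C.ob R)
    (h : C.last S ≫ f = C.first T ≫ g) : C.winr S T ≫ C.wdesc f g h = g :=
  (C.wedge_val (repGpd C R) f g h).exists.choose_spec.2

theorem wedge_hom_ext {f g : C.ob (C.wedge S T) ⟶ C.ob R}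
    (hl : C.winl S T ≫ f = C.winl S T ≫ g) (hr : C.winr S T ≫ f = C.winr S T ≫ g) : f = g :=
  (C.wedge_val (repGpd C R) (C.winl S T ≫ f) (C.winr S T ≫ f) (by
    change C.last S ≫ C.winl S T ≫ f = C.first T ≫ C.winr S T ≫ f
    rw [← Category.assoc, wedge_glue, Category.assoc])).unique ⟨rfl, rfl⟩ ⟨hl.symm, hr.symm⟩

/-- The condition that a map of globular sums preserves the first and last vertices. -/
def Ends {S T : GlobSum} (h : C.ob S ⟶ C.ob T) : Prop :=
  C.first S ≫ h = C.first T ∧ C.last S ≫ h = C.last T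

theorem ends_id (S : GlobSum) : C.Ends (𝟙 (C.ob S)) := ⟨Category.comp_id _, Category.comp_id _⟩

theorem Ends.comp {C : GlobExt} {S T U : GlobSum} {h : C.ob S ⟶ C.ob T} {k : C.ob T ⟶ C.ob U}
    (hh : C.Ends h) (hk : C.Ends k) : C.Ends (h ≫ k) :=
  ⟨by rw [← Category.assoc, hh.1, hk.1], by rw [← Category.assoc, hh.2, hk.2]⟩

/-- The wedge of two maps that preserve the end points. -/
def wedgeMap {S' T' : GlobSum} {f : C.ob S ⟶ C.ob S'} {g : C.ob T ⟶ C.ob T'}
    (hf : C.Ends f) (hg : C.Ends g) : C.ob (C.wedge S T) ⟶ C.ob (C.wedge S' T') :=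
  C.wdesc (f ≫ C.winl S' T') (g ≫ C.winr S' T') (by
    rw [← Category.assoc, hf.2, ← Category.assoc, hg.1]
    exact C.wedge_glue S' T')

theorem ends_wedgeMap {S' T' : GlobSum} {f : C.ob S ⟶ C.ob S'} {g : C.ob T ⟶ C.ob T'}
    (hf : C.Ends f) (hg : C.Ends g) : C.Ends (C.wedgeMap hf hg) := by
  refine ⟨?_, ?_⟩
  · rw [← first_winl, Category.assoc, wedgeMap, winl_wdesc, ← Category.assoc, hf.1, first_winl]
  · rw [← last_winr, Category.assoc, wedgeMap, winr_wdesc, ← Category.assoc, hg.2, last_winr]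

theorem wedgeMap_id : C.wedgeMap (C.ends_id S) (C.ends_id T) = 𝟙 _ :=
  C.wedge_hom_ext (by simp [wedgeMap]) (by simp [wedgeMap])

theorem wedgeMap_comp {S' T' S'' T'' : GlobSum} {f : C.ob S ⟶ C.ob S'} {g : C.ob T ⟶ C.ob T'}
    {f' : C.ob S' ⟶ C.ob S''} {g' : C.ob T' ⟶ C.ob T''}
    (hf : C.Ends f) (hg : C.Ends g) (hf' : C.Ends f') (hg' : C.Ends g') :
    C.wedgeMap (hf.comp hf') (hg.comp hg') = C.wedgeMap hf hg ≫ C.wedgeMap hf' hg' :=
  C.wedge_hom_ext (by simp [wedgeMap]) (by simp [wedgeMap])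

end GlobExt

end Vale.Agent.P259
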