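import Vale.Agent.P259.Shift
import Vale.Agent.P259.Free
import Vale.Agent.P259.Wedge

/-!
# The suspension of a coherator and the groupoids of cells between two vertices
-/

noncomputable section

open CategoryTheory Opposite Vale.Agent.P259.GlobSum

namespace Vale.Agent.P259

namespace GlobExt

variable (C : GlobExt)

theorem disc_one_first : C.first (disc 1) = C.hom (src 0) := (C.first_disc 1).trans rfl

theorem disc_one_last : C.last (disc 1) = C.hom (tgt 0) := (C.last_disc 1).trans rfl

/-- The end point `β` of a suspended table, as a cell. -/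
theorem first_shift_eq (A : GlobSum) : C.first A.shift = C.hom (ofCell
    ((A.shift.top (0 : Fin (A.shift.len + 1))).pull (GHom.vtx false _))) :=
  (C.hom_comp _ _).symm.trans (congrArg C.hom (discMap_comp_ofCell _ _))

theorem last_shift_eq (A : GlobSum) : C.last A.shift = C.hom (ofCell
    ((A.shift.top (0 : Fin (A.shift.len + 1))).pull (GHom.vtx true _))) :=
  (C.hom_comp _ _).symm.trans (congrArg C.hom
    ((discMap_comp_ofCell _ (A.shift.top (Fin.last _))).trans
      (congrArg ofCell (shift_endpoint true _))))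

theorem ends_shiftMap {A B : GlobSum} (f : A ⟶ B) : C.Ends (C.hom (shiftMap f)) := by
  have key : ∀ β, ofCell ((A.shift.top (0 : Fin (A.shift.len + 1))).pull (GHom.vtx β _)) ≫ shiftMap f
      = ofCell ((B.shift.top (0 : Fin (B.shift.len + 1))).pull (GHom.vtx β _)) := by
    intro β
    refine (ofCell_comp _ _).trans (congrArg ofCell ?_)
    refine Eq.trans (congrArg (cellMap (shiftMap f))
      (shiftCell_vtx β (A.top (0 : Fin (A.len + 1)))).symm) ?_
    rw [cellMap_pull, cellMap_shiftMap]
    exact shiftCell_vtx β _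
  refine ⟨?_, ?_⟩
  · rw [first_shift_eq, ← hom_comp, key, ← first_shift_eq]
  · rw [last_shift_eq, ← hom_comp, key, ← last_shift_eq]

/-- Maps out of a suspended table that fix the end points are matching families of such maps
out of its suspended discs. -/
theorem sigma_preserves (A B : GlobSum)
    (x : ∀ l, C.ob (disc (A.i l + 1)) ⟶ C.ob B.shift)
    (hxe : ∀ l, C.Ends (S := disc (A.i l + 1)) (T := B.shift) (x l))
    (hx : ∀ l : Fin A.len, C.hom (shiftMap (glueTgt A l)) ≫ x l.castSucc =
      C.hom (shiftMap (glueSrc A l)) ≫ x l.succ) :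
    ∃! g : {h : C.ob A.shift ⟶ C.ob B.shift // C.Ends h},
      ∀ l, C.hom (shiftMap (incl A l)) ≫ g.1 = x l := by
  have e : ∀ {a b c : ℕ} (g : GHom a b) (g' : GHom b c) (k : C.ob (disc c) ⟶ C.ob B.shift),
      C.hom (discMap g) ≫ C.hom (discMap g') ≫ k = C.hom (discMap (g.comp g')) ≫ k := by
    intro a b c g g' k
    rw [discMap_comp, hom_comp, Category.assoc]
  have sm : ∀ {a b : ℕ} (g : GHom a b) (k : C.ob (disc (b + 1)) ⟶ C.ob B.shift),
      C.hom (shiftMap (discMap g)) ≫ k = C.hom (discMap g.shift) ≫ k := fun g k =>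
    congrArg (fun f => C.hom f ≫ k) (shiftMap_discMap g)
  let y : ∀ l, C.ob (disc (A.shift.i l)) ⟶ C.ob B.shift := fun l =>
    C.hom (discMap (GHom.ofEq (A.shift_i l))) ≫ x (A.unshift l)
  have hy : ∀ l : Fin A.shift.len,
      C.hom (glueTgt A.shift l) ≫ y l.castSucc = C.hom (glueSrc A.shift l) ≫ y l.succ := by
    intro l
    set l' : Fin A.len := ⟨l.1, lt_of_lt_of_eq l.2 A.len_shift⟩
    have h := ((sm _ (x l'.castSucc)).symm.trans (hx l')).trans (sm _ (x l'.succ))
    have h2 := congrArg (fun k => C.hom (discMap (GHom.ofEq (A.shift_j l'))) ≫ k) h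
    refine ((e _ _ _).trans ?_).trans ((h2.trans (e _ _ _)).trans ?_)
    · refine Eq.trans ?_ (e _ _ _).symm
      exact congrArg (fun g => C.hom (discMap g) ≫ x l'.castSucc)
        ((GHom.bd_comp_ofEq _ _ _).trans (GHom.ofEq_comp_bd _ _ _).symm)
    · refine Eq.trans ?_ (e _ _ _).symm
      exact congrArg (fun g => C.hom (discMap g) ≫ x l'.succ)
        ((GHom.ofEq_comp_bd _ _ _).trans (GHom.bd_comp_ofEq _ _ _).symm)
  have hid : ∀ {n : ℕ} (k : C.ob (disc n) ⟶ C.ob B.shift), C.hom (discMap (.id n)) ≫ k = k := by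
    intro n k
    rw [discMap_id, hom_id, Category.id_comp]
  have hinc : ∀ l, C.hom (shiftMap (incl A l)) ≫ C.desc y hy = x l := by
    intro l
    refine (congrArg (fun f => C.hom f ≫ C.desc y hy) (shiftMap_incl A l)).trans ?_
    refine ((congrArg (· ≫ C.desc y hy) (C.hom_comp _ _)).trans (Category.assoc _ _ _)).trans ?_
    refine (congrArg (C.hom _ ≫ ·) (C.incl_desc y hy (A.upshift l))).trans ?_
    refine (e _ _ _).trans ?_
    rw [GHom.ofEq_comp]
    exact hid _
  have hends : C.Ends (C.desc y hy) := by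
    refine ⟨?_, ?_⟩
    · refine (Category.assoc _ _ _).trans
        ((congrArg (C.vx false _ ≫ ·) (C.incl_desc y hy 0)).trans ?_)
      refine (Category.assoc _ _ _).symm.trans ?_
      refine (congrArg (· ≫ x _) ((C.vx_ofEq _ _).trans (C.first_disc _).symm)).trans ?_
      exact (hxe _).1
    · refine (Category.assoc _ _ _).trans
        ((congrArg (C.vx true _ ≫ ·) (C.incl_desc y hy (Fin.last _))).trans ?_)
      refine (Category.assoc _ _ _).symm.trans ?_
      refine (congrArg (· ≫ x _) ((C.vx_ofEq _ _).trans (C.last_disc _).symm)).trans ?_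
      exact (hxe _).2
  refine ⟨⟨C.desc y hy, hends⟩, hinc, fun g hg => Subtype.ext ?_⟩
  refine C.hom_ext fun l => ?_
  refine Eq.trans ?_ (C.incl_desc y hy l).symm
  refine Eq.trans ?_ (congrArg (C.hom (discMap (GHom.ofEq (A.shift_i l))) ≫ ·) (hg (A.unshift l)))
  refine Eq.trans ?_ ((congrArg (· ≫ g.1) (C.hom_comp _ _)).trans (Category.assoc _ _ _))
  refine congrArg (fun k => C.hom k ≫ g.1) ?_
  refine Eq.trans ?_ (congrArg (discMap (GHom.ofEq (A.shift_i l)) ≫ ·)
    (shiftMap_incl A (A.unshift l))).symm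
  refine Eq.trans ?_ (Category.assoc _ _ _)
  refine Eq.trans ?_ (congrArg (· ≫ incl A.shift l) (discMap_comp _ _))
  exact (((congrArg (fun g => discMap g ≫ incl A.shift l)
    (GHom.ofEq_comp (A.shift_i l) (A.shift_i l).symm)).trans
    (congrArg (· ≫ incl A.shift l) (discMap_id _))).trans (Category.id_comp _)).symm

/-- The globular extension of maps between suspended tables that fix the end points. -/
def sigmaExt : GlobExt where
  Hom A B := {h : C.ob A.shift ⟶ C.ob B.shift // C.Ends h}
  id A := ⟨𝟙 _, C.ends_id _⟩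
  comp f g := ⟨f.1 ≫ g.1, f.2.comp g.2⟩
  id_comp f := Subtype.ext (Category.id_comp f.1)
  comp_id f := Subtype.ext (Category.comp_id f.1)
  assoc f g h := Subtype.ext (Category.assoc f.1 g.1 h.1)
  ι f := ⟨C.hom (shiftMap f), C.ends_shiftMap f⟩
  ι_id A := Subtype.ext ((congrArg C.hom (shiftMap_id A)).trans C.hom_id)
  ι_comp f g := Subtype.ext ((congrArg C.hom (shiftMap_comp f g)).trans (C.hom_comp _ _))
  preserves B := by
    intro A x hx
    obtain ⟨g, hg, hu⟩ := C.sigma_preserves A B (fun l => (x l).1) (fun l => (x l).2)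
      (fun l => congrArg Subtype.val (hx l))
    exact ⟨g, fun l => Subtype.ext (hg l),
      fun g' hg' => hu g' fun l => congrArg Subtype.val (hg' l)⟩

theorem hasLifts_sigmaExt (hC : C.HasLifts) : C.sigmaExt.HasLifts := by
  intro n S f g hp
  have hpar : Parallel C (n := n + 1) f.1 g.1 := by
    cases n with
    | zero =>
      refine ⟨?_, ?_⟩
      · change C.hom (src 0) ≫ f.1 = C.hom (src 0) ≫ g.1
        rw [← disc_one_first]
        exact f.2.1.trans g.2.1.symm
      · change C.hom (tgt 0) ≫ f.1 = C.hom (tgt 0) ≫ g.1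
        rw [← disc_one_last]
        exact f.2.2.trans g.2.2.symm
    | succ m =>
      have h1 : C.hom (shiftMap (src m)) ≫ f.1 = C.hom (shiftMap (src m)) ≫ g.1 :=
        congrArg Subtype.val hp.1
      have h2 : C.hom (shiftMap (tgt m)) ≫ f.1 = C.hom (shiftMap (tgt m)) ≫ g.1 :=
        congrArg Subtype.val hp.2
      rw [src, shiftMap_discMap] at h1
      rw [tgt, shiftMap_discMap] at h2
      exact ⟨h1, h2⟩
  obtain ⟨h, hs, ht⟩ := hC (n + 1) S.shift f.1 g.1 hpar
  have hs' : C.hom (src (n + 1)) ≫ h = f.1 := hs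
  have ht' : C.hom (tgt (n + 1)) ≫ h = g.1 := ht
  have es : C.hom (shiftMap (src n)) ≫ h = f.1 := by
    rw [src, shiftMap_discMap]; exact hs'
  have et : C.hom (shiftMap (tgt n)) ≫ h = g.1 := by
    rw [tgt, shiftMap_discMap]; exact ht'
  have hends : C.Ends (S := (disc (n + 1)).shift) (T := S.shift) h := by
    refine ⟨?_, ?_⟩
    · refine (congrArg (· ≫ h) (C.ends_shiftMap (src n)).1.symm).trans ?_
      exact (Category.assoc _ _ _).trans ((congrArg (C.first _ ≫ ·) es).trans f.2.1)
    · refine (congrArg (· ≫ h) (C.ends_shiftMap (src n)).2.symm).trans ?_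
      exact (Category.assoc _ _ _).trans ((congrArg (C.last _ ≫ ·) es).trans f.2.2)
  exact ⟨⟨⟨h, hends⟩, Subtype.ext es, Subtype.ext et⟩⟩

end GlobExt

/-- A suspension functor of `C`: a map under `Θ₀` to the extension of suspended tables. -/
abbrev Suspension (C : GlobExt) : Type := GlobExt.Map C C.sigmaExt

theorem IsCoherator.nonempty_suspension {C : GlobExt} (hC : IsCoherator C) :
    Nonempty (Suspension C) :=
  hC.exists_map _ (C.hasLifts_sigmaExt hC.hasLifts)

namespace Suspension

variable {C : GlobExt} (S : Suspension C) {A B D : GlobSum}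

/-- The suspension of a map. -/
def susp (f : C.ob A ⟶ C.ob B) : C.ob A.shift ⟶ C.ob B.shift := (S.map f).1

theorem ends_susp (f : C.ob A ⟶ C.ob B) : C.Ends (S.susp f) := (S.map f).2

@[simp] theorem susp_id (A : GlobSum) : S.susp (𝟙 (C.ob A)) = 𝟙 _ :=
  congrArg Subtype.val (S.map_id A)

theorem susp_comp (f : C.ob A ⟶ C.ob B) (g : C.ob B ⟶ C.ob D) :
    S.susp (f ≫ g) = S.susp f ≫ S.susp g :=
  congrArg Subtype.val (S.map_comp f g)

@[simp] theorem susp_hom (f : A ⟶ B) : S.susp (C.hom f) = C.hom (shiftMap f) :=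
  congrArg Subtype.val (S.map_ι f)

/-- Suspension, as a functor on `C`. -/
def functor : C.Obj ⥤ C.Obj where
  obj A := GlobSum.shift A
  map f := S.susp f
  map_id A := S.susp_id A
  map_comp f g := S.susp_comp f g

end Suspension

end Vale.Agent.P259
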